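import Mathlib

/-!
Basic Fourier-Walsh degree calculus on the Boolean cube, and a push-forward lemma for
product weights.
-/

set_option autoImplicit false
set_option linter.unusedSectionVars false

namespace Crest.Agent.R63

open Finset

/-- The sign of a bit. -/
noncomputable def sg (b : Bool) : ℝ := if b then 1 else -1

@[simp] lemma sg_true : sg true = 1 := by simp [sg]
@[simp] lemma sg_false : sg false = -1 := by simp [sg]
lemma sg_mul_self (b : Bool) : sg b * sg b = 1 := by cases b <;> simp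
lemma sg_not (b : Bool) : sg (!b) = - sg b := by cases b <;> simp
lemma abs_sg (b : Bool) : |sg b| = 1 := by cases b <;> simp

/-- Walsh character. -/
noncomputable def chi {ι : Type*} (S : Finset ι) (x : ι → Bool) : ℝ := ∏ i ∈ S, sg (x i)

/-- Functions of degree at most `d`. -/
noncomputable def Deg (ι : Type*) (d : ℕ) : Submodule ℝ ((ι → Bool) → ℝ) :=
  Submodule.span ℝ {f | ∃ S : Finset ι, S.card ≤ d ∧ f = chi S}

section degree
variable {ι : Type*}

lemma chi_mem {S : Finset ι} {d : ℕ} (h : S.card ≤ d) : chi S ∈ Deg ι d :=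
  Submodule.subset_span ⟨S, h, rfl⟩

lemma Deg_mono {d e : ℕ} (h : d ≤ e) : Deg ι d ≤ Deg ι e :=
  Submodule.span_mono (fun _ ⟨S, hS, hf⟩ => ⟨S, hS.trans h, hf⟩)

lemma mem_mono {d e : ℕ} {f : (ι → Bool) → ℝ} (hf : f ∈ Deg ι d) (h : d ≤ e) : f ∈ Deg ι e :=
  Deg_mono h hf

lemma const_mem (c : ℝ) (d : ℕ) : (fun _ : ι → Bool => c) ∈ Deg ι d := by
  have h : chi (∅ : Finset ι) ∈ Deg ι d := chi_mem (by simp)
  have := Submodule.smul_mem _ c h
  convert this using 1
  ext x; simp [chi]

lemma chi_mul_chi [DecidableEq ι] (S T : Finset ι) (x : ι → Bool) :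
    chi S x * chi T x = chi (symmDiff S T) x := by
  unfold chi
  have h1 : ∏ i ∈ S, sg (x i) = (∏ i ∈ S \ T, sg (x i)) * ∏ i ∈ S ∩ T, sg (x i) := by
    rw [← Finset.prod_union (Finset.disjoint_sdiff_inter S T), Finset.sdiff_union_inter]
  have h2 : ∏ i ∈ T, sg (x i) = (∏ i ∈ T \ S, sg (x i)) * ∏ i ∈ S ∩ T, sg (x i) := by
    rw [Finset.inter_comm, ← Finset.prod_union (Finset.disjoint_sdiff_inter T S),
      Finset.sdiff_union_inter]
  have h3 : (∏ i ∈ S ∩ T, sg (x i)) * ∏ i ∈ S ∩ T, sg (x i) = 1 := by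
    rw [← Finset.prod_mul_distrib]; simp [sg_mul_self]
  have h4 : symmDiff S T = (S \ T) ∪ (T \ S) := rfl
  rw [h1, h2, h4, Finset.prod_union (by
    rw [Finset.disjoint_left]; intro a ha hb; simp at ha hb; tauto)]
  calc _ = (∏ i ∈ S \ T, sg (x i)) * (∏ i ∈ T \ S, sg (x i)) *
      ((∏ i ∈ S ∩ T, sg (x i)) * ∏ i ∈ S ∩ T, sg (x i)) := by ring
    _ = _ := by rw [h3, mul_one]

lemma mul_mem {d e : ℕ} {f g : (ι → Bool) → ℝ} (hf : f ∈ Deg ι d) (hg : g ∈ Deg ι e) :
    (fun x => f x * g x) ∈ Deg ι (d + e) := by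
  classical
  induction hf using Submodule.span_induction with
  | mem f hf =>
    obtain ⟨S, hS, rfl⟩ := hf
    induction hg using Submodule.span_induction with
    | mem g hg =>
      obtain ⟨T, hT, rfl⟩ := hg
      have : (fun x => chi S x * chi T x) = chi (symmDiff S T) := by
        ext x; exact chi_mul_chi S T x
      rw [this]
      refine chi_mem ?_
      calc (symmDiff S T).card ≤ (S ∪ T).card := Finset.card_le_card symmDiff_subset_union
        _ ≤ S.card + T.card := Finset.card_union_le _ _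
        _ ≤ d + e := by omega
    | zero => convert Submodule.zero_mem _ using 1; ext x; simp
    | add a b _ _ ha hb => convert Submodule.add_mem _ ha hb using 1; ext x; simp [mul_add]
    | smul c a _ ha => convert Submodule.smul_mem _ c ha using 1; ext x; simp; ring
  | zero => convert Submodule.zero_mem _ using 1; ext x; simp
  | add a b _ _ ha hb => convert Submodule.add_mem _ ha hb using 1; ext x; simp [add_mul]
  | smul c a _ ha => convert Submodule.smul_mem _ c ha using 1; ext x; simp; ring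

lemma add_mem' {d : ℕ} {f g : (ι → Bool) → ℝ} (hf : f ∈ Deg ι d) (hg : g ∈ Deg ι d) :
    (fun x => f x + g x) ∈ Deg ι d := Submodule.add_mem _ hf hg

lemma sub_mem' {d : ℕ} {f g : (ι → Bool) → ℝ} (hf : f ∈ Deg ι d) (hg : g ∈ Deg ι d) :
    (fun x => f x - g x) ∈ Deg ι d := Submodule.sub_mem _ hf hg

lemma neg_mem' {d : ℕ} {f : (ι → Bool) → ℝ} (hf : f ∈ Deg ι d) :
    (fun x => - f x) ∈ Deg ι d := Submodule.neg_mem _ hf

lemma const_mul_mem {d : ℕ} {f : (ι → Bool) → ℝ} (c : ℝ) (hf : f ∈ Deg ι d) :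
    (fun x => c * f x) ∈ Deg ι d := Submodule.smul_mem _ c hf

lemma mul_const_mem {d : ℕ} {f : (ι → Bool) → ℝ} (c : ℝ) (hf : f ∈ Deg ι d) :
    (fun x => f x * c) ∈ Deg ι d := by
  simpa [mul_comm] using const_mul_mem c hf

lemma div_const_mem {d : ℕ} {f : (ι → Bool) → ℝ} (c : ℝ) (hf : f ∈ Deg ι d) :
    (fun x => f x / c) ∈ Deg ι d := by
  simpa [div_eq_mul_inv] using mul_const_mem c⁻¹ hf

lemma sum_mem' {α : Type*} {d : ℕ} (s : Finset α) {f : α → (ι → Bool) → ℝ}
    (hf : ∀ a ∈ s, f a ∈ Deg ι d) : (fun x => ∑ a ∈ s, f a x) ∈ Deg ι d := by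
  have := Submodule.sum_mem _ hf
  convert this using 1
  ext x; simp

lemma prod_mem' {α : Type*} {e : ℕ} (s : Finset α) {f : α → (ι → Bool) → ℝ}
    (hf : ∀ a ∈ s, f a ∈ Deg ι e) : (fun x => ∏ a ∈ s, f a x) ∈ Deg ι (s.card * e) := by
  classical
  induction s using Finset.induction_on with
  | empty => simpa using const_mem 1 0
  | insert a s ha ih =>
    have h1 := mul_mem (hf a (by simp)) (ih (fun b hb => hf b (by simp [hb])))
    rw [Finset.card_insert_of_notMem ha]
    convert h1 using 1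
    · congr 1; ring
    · ext x; rw [Finset.prod_insert ha]

lemma sg_coord_mem (i : ι) : (fun x : ι → Bool => sg (x i)) ∈ Deg ι 1 := by
  have := chi_mem (S := {i}) (d := 1) (by simp)
  convert this using 1
  ext x; simp [chi]

/-- Composition: substituting Boolean functions of degree `e` into a function of degree `d`. -/
lemma comp_mem {κ : Type*} {d e : ℕ} {F : (ι → Bool) → ℝ} (hF : F ∈ Deg ι d)
    (y : (κ → Bool) → ι → Bool) (hy : ∀ i, (fun x => sg (y x i)) ∈ Deg κ e) :
    (fun x => F (y x)) ∈ Deg κ (d * e) := by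
  induction hF using Submodule.span_induction with
  | mem f hf =>
    obtain ⟨S, hS, rfl⟩ := hf
    have := prod_mem' S (f := fun i x => sg (y x i)) (fun i _ => hy i)
    exact mem_mono this (Nat.mul_le_mul_right _ hS)
  | zero => exact Submodule.zero_mem _
  | add a b _ _ ha hb => exact Submodule.add_mem _ ha hb
  | smul c a _ ha => exact Submodule.smul_mem _ c ha

/-- Reindexing along any map of coordinates. -/
lemma reindex_mem {κ : Type*} {d : ℕ} {F : (ι → Bool) → ℝ} (hF : F ∈ Deg ι d) (ρ : ι → κ) :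
    (fun x : κ → Bool => F (fun i => x (ρ i))) ∈ Deg κ d := by
  simpa using comp_mem hF (fun x i => x (ρ i)) (e := 1) (fun i => sg_coord_mem (ρ i))

end degree

section pushforward

/-- Push-forward of product weights along coordinatewise maps. -/
lemma sum_pi_push {ι α β : Type*} [Fintype ι] [DecidableEq ι] [Fintype α] [Fintype β]
    [DecidableEq β] (w : ι → α → ℝ) (π : ι → α → β) (H : (ι → β) → ℝ) :
    ∑ x : ι → α, (∏ i, w i (x i)) * H (fun i => π i (x i)) =
      ∑ y : ι → β, (∏ i, ∑ a, if π i a = y i then w i a else 0) * H y := by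
  have h1 : ∀ y : ι → β, (∏ i, ∑ a, if π i a = y i then w i a else 0) =
      ∑ x : ι → α, ∏ i, (if π i (x i) = y i then w i (x i) else 0) := by
    intro y
    rw [Finset.prod_univ_sum]
    simp
  simp_rw [h1, Finset.sum_mul]
  rw [Finset.sum_comm]
  refine Finset.sum_congr rfl fun x _ => ?_
  rw [Finset.sum_eq_single (fun i => π i (x i))]
  · simp
  · intro y _ hy
    have : ∃ i, π i (x i) ≠ y i := by
      by_contra hc
      push Not at hc
      exact hy (funext fun i => (hc i).symm)
    obtain ⟨i, hi⟩ := this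
    rw [Finset.prod_eq_zero (Finset.mem_univ i) (by simp [hi]), zero_mul]
  · simp

lemma sum_pi_prod {ι α : Type*} [Fintype ι] [DecidableEq ι] [Fintype α] (w : ι → α → ℝ) :
    ∑ x : ι → α, ∏ i, w i (x i) = ∏ i, ∑ a, w i a := by
  rw [Finset.prod_univ_sum]; simp

end pushforward

section fourier
variable {ι : Type*} [Fintype ι] [DecidableEq ι]

lemma chi_eq_prod_univ (S : Finset ι) (x : ι → Bool) :
    chi S x = ∏ i, (if i ∈ S then sg (x i) else 1) := by
  unfold chi
  rw [Finset.prod_ite_mem]; simp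

lemma sum_chi (S : Finset ι) (hS : S.Nonempty) : ∑ x : ι → Bool, chi S x = 0 := by
  simp_rw [chi_eq_prod_univ]
  rw [sum_pi_prod (fun i b => if i ∈ S then sg b else 1)]
  obtain ⟨i, hi⟩ := hS
  exact Finset.prod_eq_zero (Finset.mem_univ i) (by simp [hi])

lemma sum_mul_chi_eq_zero {d : ℕ} {f : (ι → Bool) → ℝ} (hf : f ∈ Deg ι d) (T : Finset ι)
    (hT : d < T.card) : ∑ x, f x * chi T x = 0 := by
  induction hf using Submodule.span_induction with
  | mem f hf =>
    obtain ⟨S, hS, rfl⟩ := hf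
    simp_rw [chi_mul_chi]
    apply sum_chi
    rw [Finset.nonempty_iff_ne_empty]
    intro h
    have : S = T := by simpa using (symmDiff_eq_bot.mp h)
    subst this; omega
  | zero => simp
  | add a b _ _ ha hb => simp [add_mul, Finset.sum_add_distrib, ha, hb]
  | smul c a _ ha => simp [mul_assoc, ← Finset.mul_sum, ha]

lemma sum_chi_mul_chi (a x : ι → Bool) :
    ∑ T : Finset ι, chi T a * chi T x = if a = x then 2 ^ Fintype.card ι else 0 := by
  have h1 : ∑ T : Finset ι, chi T a * chi T x = ∏ i, (1 + sg (a i) * sg (x i)) := by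
    rw [Finset.prod_one_add]
    simp [chi, Finset.prod_mul_distrib]
  rw [h1]
  split_ifs with h
  · subst h; simp [sg_mul_self]; norm_num
  · have : ∃ i, a i ≠ x i := by
      by_contra hc; push Not at hc; exact h (funext hc)
    obtain ⟨i, hi⟩ := this
    refine Finset.prod_eq_zero (Finset.mem_univ i) ?_
    revert hi
    cases a i <;> cases x i <;> simp

lemma fourier_inversion (f : (ι → Bool) → ℝ) (x : ι → Bool) :
    f x = ∑ T : Finset ι, ((∑ a, f a * chi T a) / 2 ^ Fintype.card ι) * chi T x := by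
  have : ∑ T : Finset ι, ((∑ a, f a * chi T a) / 2 ^ Fintype.card ι) * chi T x =
      (∑ a, f a * ∑ T : Finset ι, chi T a * chi T x) / 2 ^ Fintype.card ι := by
    simp_rw [Finset.mul_sum, Finset.sum_div, Finset.sum_mul]
    rw [Finset.sum_comm]
    refine Finset.sum_congr rfl fun a _ => Finset.sum_congr rfl fun T _ => by ring
  rw [this]
  simp_rw [sum_chi_mul_chi]
  simp

lemma mem_of_coeff {d : ℕ} {f : (ι → Bool) → ℝ}
    (h : ∀ T : Finset ι, d < T.card → ∑ a, f a * chi T a = 0) : f ∈ Deg ι d := by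
  have : f = fun x => ∑ T : Finset ι, ((∑ a, f a * chi T a) / 2 ^ Fintype.card ι) * chi T x :=
    funext (fourier_inversion f)
  rw [this]
  refine sum_mem' _ (f := fun T x => ((∑ a, f a * chi T a) / 2 ^ Fintype.card ι) * chi T x)
    fun T _ => ?_
  by_cases hT : d < T.card
  · rw [h T hT]; simpa using const_mem (0 : ℝ) d
  · exact const_mul_mem _ (chi_mem (by omega))

lemma mem_card (f : (ι → Bool) → ℝ) : f ∈ Deg ι (Fintype.card ι) :=
  mem_of_coeff fun T hT => absurd (Finset.card_le_univ T) (by omega)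

end fourier

/-- Average over a finite type. -/
noncomputable def E {α : Type*} [Fintype α] (f : α → ℝ) : ℝ := (∑ x, f x) / Fintype.card α

section avg
variable {α β : Type*} [Fintype α] [Fintype β]

lemma E_add (f g : α → ℝ) : E (fun x => f x + g x) = E f + E g := by
  simp [E, Finset.sum_add_distrib, add_div]

lemma E_sub (f g : α → ℝ) : E (fun x => f x - g x) = E f - E g := by
  simp [E, Finset.sum_sub_distrib, sub_div]

lemma E_const_mul (c : ℝ) (f : α → ℝ) : E (fun x => c * f x) = c * E f := by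
  simp [E, ← Finset.mul_sum, mul_div_assoc]

lemma E_mul_const (c : ℝ) (f : α → ℝ) : E (fun x => f x * c) = E f * c := by
  simp [E, ← Finset.sum_mul]; ring

lemma E_const [Nonempty α] (c : ℝ) : E (fun _ : α => c) = c := by
  have : (Fintype.card α : ℝ) ≠ 0 := by exact_mod_cast Fintype.card_ne_zero
  simp [E]

lemma E_mono {f g : α → ℝ} (h : ∀ x, f x ≤ g x) : E f ≤ E g := by
  unfold E
  gcongr with x
  exact h x

lemma E_nonneg {f : α → ℝ} (h : ∀ x, 0 ≤ f x) : 0 ≤ E f := by
  unfold E
  exact div_nonneg (Finset.sum_nonneg fun x _ => h x) (by positivity)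

lemma E_le_const [Nonempty α] {f : α → ℝ} {c : ℝ} (h : ∀ x, f x ≤ c) : E f ≤ c := by
  simpa [E_const] using E_mono (g := fun _ => c) h

lemma E_equiv (e : α ≃ β) (f : β → ℝ) : E (fun x => f (e x)) = E f := by
  unfold E
  rw [Equiv.sum_comp e f, Fintype.card_congr e]

lemma E_prod (f : α × β → ℝ) : E f = E (fun a => E (fun b => f (a, b))) := by
  unfold E
  rw [Fintype.sum_prod_type, Fintype.card_prod, ← Finset.sum_div, div_div]
  push_cast; ring_nf

lemma E_comm (f : α → β → ℝ) : E (fun a => E (fun b => f a b)) = E (fun b => E (fun a => f a b)) := by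
  unfold E
  rw [← Finset.sum_div, ← Finset.sum_div, Finset.sum_comm]; ring

lemma E_sum {γ : Type*} (s : Finset γ) (f : γ → α → ℝ) :
    E (fun x => ∑ c ∈ s, f c x) = ∑ c ∈ s, E (f c) := by
  unfold E
  rw [Finset.sum_comm, Finset.sum_div]

lemma E_sq_le (f : α → ℝ) [Nonempty α] : (E f) ^ 2 ≤ E (fun x => f x ^ 2) := by
  have h : 0 ≤ E (fun x => (f x - E f) ^ 2) := E_nonneg fun x => sq_nonneg _
  have : E (fun x => (f x - E f) ^ 2) = E (fun x => f x ^ 2) - (E f) ^ 2 := by
    have : (fun x => (f x - E f) ^ 2) = fun x => (f x ^ 2 - (2 * E f) * f x) + (E f) ^ 2 := by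
      ext x; ring
    rw [this, E_add, E_sub, E_const_mul, E_const]; ring
  linarith

end avg

/-- The sum of the signs of all bits. -/
noncomputable def Ssum {ι : Type*} [Fintype ι] (x : ι → Bool) : ℝ := ∑ i, sg (x i)

lemma abs_Ssum_le {ι : Type*} [Fintype ι] (x : ι → Bool) : |Ssum x| ≤ Fintype.card ι := by
  unfold Ssum
  calc _ ≤ ∑ i, |sg (x i)| := Finset.abs_sum_le_sum_abs _ _
    _ = _ := by simp [abs_sg]

lemma E_Ssum {ι : Type*} [Fintype ι] [DecidableEq ι] : E (fun x : ι → Bool => Ssum x) = 0 := by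
  unfold Ssum
  rw [E_sum]
  refine Finset.sum_eq_zero fun i _ => ?_
  have := sum_chi (S := {i}) (by simp)
  simp only [chi, Finset.prod_singleton] at this
  simp [E, this]

end Crest.Agent.R63
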