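import Crest.Agent.R63.Basic

/-!
Chebyshev-type recurrences and moments of sums of independent copies.
-/

set_option autoImplicit false
set_option linter.unusedSectionVars false

namespace Crest.Agent.R63

open Finset

/-- `(cheb j y).1 = ± T_{2j}(y)`, `(cheb j y).2 = ± T_{2j+1}(y)`. -/
noncomputable def cheb : ℕ → ℝ → ℝ × ℝ
  | 0, y => (1, y)
  | j + 1, y => ((cheb j y).1 - 2 * y * (cheb j y).2,
      (cheb j y).2 + 2 * y * ((cheb j y).1 - 2 * y * (cheb j y).2))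

lemma cheb_inv (j : ℕ) (y : ℝ) :
    (cheb j y).1 ^ 2 - 2 * y * (cheb j y).1 * (cheb j y).2 + (cheb j y).2 ^ 2 = 1 - y ^ 2 := by
  induction j with
  | zero => simp [cheb]; ring
  | succ j ih => simp only [cheb]; linear_combination ih

lemma abs_cheb_le (j : ℕ) {y : ℝ} (hy : |y| ≤ 1 / 2) : |(cheb j y).2| ≤ 1 := by
  have h := cheb_inv j y
  have hy2 : y ^ 2 ≤ 1 / 4 := by
    have := sq_abs y
    nlinarith [abs_nonneg y]
  have h1 : (1 - y ^ 2) * (cheb j y).2 ^ 2 ≤ (1 - y ^ 2) * 1 := by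
    nlinarith [sq_nonneg ((cheb j y).1 - y * (cheb j y).2)]
  have h2 : (cheb j y).2 ^ 2 ≤ 1 := le_of_mul_le_mul_left h1 (by linarith)
  exact abs_le_one_iff_mul_self_le_one.mpr (by nlinarith)

lemma abs_cheb_fst_le (j : ℕ) {y : ℝ} (hy : |y| ≤ 1 / 2) : |(cheb j y).1| ≤ 1 := by
  have h := cheb_inv j y
  have hy2 : y ^ 2 ≤ 1 / 4 := by
    have := sq_abs y
    nlinarith [abs_nonneg y]
  have h1 : (1 - y ^ 2) * (cheb j y).1 ^ 2 ≤ (1 - y ^ 2) * 1 := by
    nlinarith [sq_nonneg ((cheb j y).2 - y * (cheb j y).1)]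
  have h2 : (cheb j y).1 ^ 2 ≤ 1 := le_of_mul_le_mul_left h1 (by linarith)
  exact abs_le_one_iff_mul_self_le_one.mpr (by nlinarith)

lemma cheb_bounds (j : ℕ) {y : ℝ} (hy : |y| ≤ 1 / 2) :
    |(cheb j y).2| ≤ (2 * j + 1) * |y| ∧ |(cheb j y).1 - 1| ≤ 2 * j ^ 2 * y ^ 2 ∧
      |(cheb j y).2 - (2 * j + 1) * y| ≤ 4 * j ^ 3 * y ^ 2 := by
  have hy0 := abs_nonneg y
  have hsq : |y| * |y| = y ^ 2 := by rw [← sq, sq_abs]
  induction j with
  | zero => simp [cheb]
  | succ j ih =>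
    obtain ⟨h1, h2, h3⟩ := ih
    have hj : (0 : ℝ) ≤ j := Nat.cast_nonneg j
    have he := abs_cheb_fst_le (j + 1) hy
    have h2' : |(cheb (j + 1) y).1 - 1| ≤ 2 * ((j : ℝ) + 1) ^ 2 * y ^ 2 := by
      have e : (cheb (j + 1) y).1 - 1 = ((cheb j y).1 - 1) - 2 * y * (cheb j y).2 := by
        simp only [cheb]; ring
      rw [e]
      calc _ ≤ |(cheb j y).1 - 1| + |2 * y * (cheb j y).2| := abs_sub _ _
        _ = |(cheb j y).1 - 1| + 2 * |y| * |(cheb j y).2| := by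
            rw [abs_mul, abs_mul, abs_two]
        _ ≤ 2 * j ^ 2 * y ^ 2 + 2 * |y| * ((2 * j + 1) * |y|) := by gcongr
        _ = _ := by rw [← hsq]; ring
    push_cast
    refine ⟨?_, h2', ?_⟩
    · have e : (cheb (j + 1) y).2 = (cheb j y).2 + 2 * y * (cheb (j + 1) y).1 := by
        simp only [cheb]
      rw [e]
      calc _ ≤ |(cheb j y).2| + |2 * y * (cheb (j + 1) y).1| := abs_add_le _ _
        _ = |(cheb j y).2| + 2 * |y| * |(cheb (j + 1) y).1| := by
            rw [abs_mul, abs_mul, abs_two]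
        _ ≤ (2 * j + 1) * |y| + 2 * |y| * 1 := by gcongr
        _ = _ := by ring
    · have e : (cheb (j + 1) y).2 - (2 * ((j : ℝ) + 1) + 1) * y =
          ((cheb j y).2 - (2 * j + 1) * y) + 2 * y * ((cheb (j + 1) y).1 - 1) := by
        simp only [cheb]; ring
      rw [e]
      have hy2 : 0 ≤ y ^ 2 := sq_nonneg y
      calc _ ≤ |(cheb j y).2 - (2 * j + 1) * y| + |2 * y * ((cheb (j + 1) y).1 - 1)| :=
            abs_add_le _ _
        _ = |(cheb j y).2 - (2 * j + 1) * y| + 2 * |y| * |(cheb (j + 1) y).1 - 1| := by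
            rw [abs_mul, abs_mul, abs_two]
        _ ≤ 4 * j ^ 3 * y ^ 2 + 2 * (1 / 2) * (2 * ((j : ℝ) + 1) ^ 2 * y ^ 2) := by gcongr
        _ ≤ _ := by
            have : 4 * (j : ℝ) ^ 3 + 2 * (j + 1) ^ 2 ≤ 4 * (j + 1) ^ 3 := by nlinarith [sq_nonneg (j : ℝ)]
            nlinarith

lemma cheb_int (j : ℕ) {y Q : ℝ} {q a : ℤ} (hq : Q = q) (hy : Q * y = a) :
    (∃ b : ℤ, Q ^ (2 * j) * (cheb j y).1 = b) ∧ ∃ c : ℤ, Q ^ (2 * j + 1) * (cheb j y).2 = c := by
  induction j with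
  | zero => exact ⟨⟨1, by simp [cheb]⟩, ⟨a, by simp [cheb, hy]⟩⟩
  | succ j ih =>
    obtain ⟨⟨b, hb⟩, ⟨c, hc⟩⟩ := ih
    have h1 : Q ^ (2 * (j + 1)) * (cheb (j + 1) y).1 = ((q ^ 2 * b - 2 * a * c : ℤ) : ℝ) := by
      push_cast
      rw [← hq, ← hb, ← hc, ← hy]
      simp only [cheb]; ring
    refine ⟨⟨_, h1⟩, ⟨q ^ 2 * c + 2 * a * (q ^ 2 * b - 2 * a * c), ?_⟩⟩
    push_cast
    rw [← hq, ← hb, ← hc, ← hy]
    simp only [cheb]; ring

lemma cheb_mem {ι : Type*} (j : ℕ) {d : ℕ} {y : (ι → Bool) → ℝ} (hy : y ∈ Deg ι d) :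
    (fun x => (cheb j (y x)).1) ∈ Deg ι (2 * j * d) ∧
      (fun x => (cheb j (y x)).2) ∈ Deg ι ((2 * j + 1) * d) := by
  induction j with
  | zero => exact ⟨const_mem 1 _, by simpa [cheb] using hy⟩
  | succ j ih =>
    obtain ⟨h1, h2⟩ := ih
    have h3 : (fun x => (cheb (j + 1) (y x)).1) ∈ Deg ι (2 * (j + 1) * d) := by
      simp only [cheb]
      refine sub_mem' (mem_mono h1 (by nlinarith)) ?_
      exact mem_mono (mul_mem (const_mul_mem 2 hy) h2) (by nlinarith)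
    refine ⟨h3, ?_⟩
    have e : (fun x => (cheb (j + 1) (y x)).2) =
        fun x => (cheb j (y x)).2 + 2 * y x * (cheb (j + 1) (y x)).1 := by
      ext x; simp only [cheb]
    rw [e]
    refine add_mem' (mem_mono h2 (by nlinarith)) ?_
    exact mem_mono (mul_mem (const_mul_mem 2 hy) h3) (by nlinarith)

section moments
variable {α : Type*} [Fintype α] [Nonempty α]

lemma E_fin_succ (n : ℕ) (F : (Fin (n + 1) → α) → ℝ) :
    E F = E (fun a : α => E (fun x : Fin n → α => F (Fin.cons a x))) := by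
  rw [← E_equiv (Fin.consEquiv (fun _ => α)) F, E_prod]
  rfl

lemma moments (h : α → ℝ) (B : ℝ) (h0 : E h = 0) (hB : ∀ a, |h a| ≤ B) (n : ℕ) :
    E (fun x : Fin n → α => ∑ i, h (x i)) = 0 ∧
    E (fun x : Fin n → α => (∑ i, h (x i)) ^ 2) = n * E (fun a => h a ^ 2) ∧
    E (fun x : Fin n → α => (∑ i, h (x i)) ^ 4) ≤ 3 * n ^ 2 * B ^ 4 := by
  have hB0 : 0 ≤ B := le_trans (abs_nonneg _) (hB (Classical.arbitrary α))
  have hv0 : 0 ≤ E (fun a => h a ^ 2) := E_nonneg fun a => sq_nonneg _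
  have hv : E (fun a => h a ^ 2) ≤ B ^ 2 := E_le_const fun a => by
    rw [← sq_abs]; exact pow_le_pow_left₀ (abs_nonneg _) (hB a) 2
  have h4 : E (fun a => h a ^ 4) ≤ B ^ 4 := E_le_const fun a => by
    have : h a ^ 4 = |h a| ^ 4 := by
      rw [show (4 : ℕ) = 2 * 2 from rfl, pow_mul, pow_mul, sq_abs]
    rw [this]; exact pow_le_pow_left₀ (abs_nonneg _) (hB a) 4
  induction n with
  | zero => simp [E]
  | succ n ih =>
    obtain ⟨m1, m2, m4⟩ := ih
    refine ⟨?_, ?_, ?_⟩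
    · rw [E_fin_succ]
      simp only [Fin.sum_univ_succ, Fin.cons_zero, Fin.cons_succ]
      simp_rw [E_add, E_const, m1, add_zero]
      exact h0
    · rw [E_fin_succ]
      simp only [Fin.sum_univ_succ, Fin.cons_zero, Fin.cons_succ]
      have : ∀ a : α, E (fun x : Fin n → α => (h a + ∑ i, h (x i)) ^ 2) =
          h a ^ 2 + n * E (fun a => h a ^ 2) := by
        intro a
        have : (fun x : Fin n → α => (h a + ∑ i, h (x i)) ^ 2) =
            fun x => (h a ^ 2 + (2 * h a) * ∑ i, h (x i)) + (∑ i, h (x i)) ^ 2 := by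
          ext x; ring
        rw [this, E_add, E_add, E_const, E_const_mul, m1, m2]; ring
      simp_rw [this]
      rw [E_add, E_const]; push_cast; ring
    · rw [E_fin_succ]
      simp only [Fin.sum_univ_succ, Fin.cons_zero, Fin.cons_succ]
      have : ∀ a : α, E (fun x : Fin n → α => (h a + ∑ i, h (x i)) ^ 4) =
          (h a ^ 4 + (6 * (n * E (fun a => h a ^ 2))) * h a ^ 2 +
            (4 * E (fun x : Fin n → α => (∑ i, h (x i)) ^ 3)) * h a) +
            E (fun x : Fin n → α => (∑ i, h (x i)) ^ 4) := by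
        intro a
        have : (fun x : Fin n → α => (h a + ∑ i, h (x i)) ^ 4) =
            fun x => (((h a ^ 4 + (4 * h a ^ 3) * ∑ i, h (x i)) + (6 * h a ^ 2) * (∑ i, h (x i)) ^ 2)
              + (4 * h a) * (∑ i, h (x i)) ^ 3) + (∑ i, h (x i)) ^ 4 := by
          ext x; ring
        rw [this, E_add, E_add, E_add, E_add, E_const, E_const_mul, E_const_mul, E_const_mul, m1, m2]
        ring
      simp_rw [this]
      rw [E_add, E_add, E_add, E_const, E_const_mul, E_const_mul, h0]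
      push_cast
      have hn : (0 : ℝ) ≤ n := Nat.cast_nonneg n
      have hvv : E (fun a => h a ^ 2) * E (fun a => h a ^ 2) ≤ B ^ 4 := by
        calc _ ≤ B ^ 2 * B ^ 2 := mul_le_mul hv hv hv0 (by positivity)
          _ = B ^ 4 := by ring
      have hB4 : 0 ≤ B ^ 4 := by positivity
      nlinarith

end moments

end Crest.Agent.R63
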