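import Crest.Agent.R63.Spread

/-!
Many disjoint subsets with equal vector sums (pigeonhole plus the spread lemma), and a greedy
colouring of almost all of a finite set into classes with equal sums.
-/

set_option autoImplicit false
set_option linter.unusedSectionVars false

namespace Crest.Agent.R63

open Finset

section
variable {X : Type*} [Fintype X] [DecidableEq X]

lemma exists_spread_link (F : Finset (Finset X)) (κ : ℕ) (R : ℝ) (hR : 1 ≤ R)
    (hF : ∀ A ∈ F, A.card = κ) (hbig : R ^ κ < F.card) :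
    ∃ T : Finset X, T.card < κ ∧ ∃ G : Finset (Finset X), G.Nonempty ∧
      (∀ B ∈ G, Disjoint B T ∧ B ∪ T ∈ F) ∧
      ∀ U : Finset X, ((G.filter (fun B => U ⊆ B)).card : ℝ) * R ^ U.card ≤ G.card := by
  have hR0 : 0 < R := by linarith
  obtain ⟨T, -, hT⟩ := Finset.exists_max_image (Finset.univ : Finset (Finset X))
    (fun T => ((F.filter (fun A => T ⊆ A)).card : ℝ) * R ^ T.card) Finset.univ_nonempty
  have h0 := hT ∅ (Finset.mem_univ _)
  simp only [Finset.empty_subset, Finset.filter_true, Finset.card_empty, pow_zero,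
    mul_one] at h0
  have hbig' : R ^ κ < ((F.filter (fun A => T ⊆ A)).card : ℝ) * R ^ T.card := lt_of_lt_of_le hbig h0
  have hne : (F.filter (fun A => T ⊆ A)).Nonempty := by
    rw [← Finset.card_pos]
    by_contra hc
    have : (F.filter (fun A => T ⊆ A)).card = 0 := by omega
    rw [this] at hbig'
    have : 0 < R ^ κ := by positivity
    simp at hbig'; linarith
  have hTκ : T.card < κ := by
    obtain ⟨A, hA⟩ := hne
    rw [Finset.mem_filter] at hA
    have hle : T.card ≤ κ := hF A hA.1 ▸ Finset.card_le_card hA.2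
    rcases hle.lt_or_eq with h | h
    · exact h
    · exfalso
      have : (F.filter (fun A => T ⊆ A)).card ≤ 1 := by
        rw [Finset.card_le_one]
        intro a ha b hb
        rw [Finset.mem_filter] at ha hb
        rw [← Finset.eq_of_subset_of_card_le ha.2 (by rw [hF a ha.1, h]),
          ← Finset.eq_of_subset_of_card_le hb.2 (by rw [hF b hb.1, h])]
      have h1 : ((F.filter (fun A => T ⊆ A)).card : ℝ) ≤ 1 := by exact_mod_cast this
      rw [h] at hbig'
      have : 0 < R ^ κ := by positivity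
      nlinarith
  have hinj : ∀ (D : Finset (Finset X)), (∀ A ∈ D, T ⊆ A) →
      (D.image (fun A => A \ T)).card = D.card := by
    intro D hD
    apply Finset.card_image_of_injOn
    intro a ha b hb hab
    have ha' := hD a ha
    have hb' := hD b hb
    simp only at hab
    rw [← Finset.sdiff_union_of_subset ha', ← Finset.sdiff_union_of_subset hb', hab]
  refine ⟨T, hTκ, (F.filter (fun A => T ⊆ A)).image (fun A => A \ T), hne.image _, ?_, ?_⟩
  · intro B hB
    rw [Finset.mem_image] at hB
    obtain ⟨A, hA, rfl⟩ := hB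
    rw [Finset.mem_filter] at hA
    exact ⟨Finset.sdiff_disjoint, by rw [Finset.sdiff_union_of_subset hA.2]; exact hA.1⟩
  · intro U
    rw [hinj _ (fun A hA => (Finset.mem_filter.mp hA).2)]
    by_cases hU : Disjoint U T
    · have h1 : ((F.filter (fun A => T ⊆ A)).image (fun A => A \ T)).filter (fun B => U ⊆ B) =
          (F.filter (fun A => U ∪ T ⊆ A)).image (fun A => A \ T) := by
        ext B
        simp only [Finset.mem_filter, Finset.mem_image]
        constructor
        · rintro ⟨⟨A, ⟨hA, hTA⟩, rfl⟩, hUB⟩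
          exact ⟨A, ⟨hA, Finset.union_subset (hUB.trans Finset.sdiff_subset) hTA⟩, rfl⟩
        · rintro ⟨A, ⟨hA, hUT⟩, rfl⟩
          refine ⟨⟨A, ⟨hA, Finset.subset_union_right.trans hUT⟩, rfl⟩, ?_⟩
          rw [Finset.subset_sdiff]
          exact ⟨Finset.subset_union_left.trans hUT, hU⟩
      rw [h1, hinj _ (fun A hA => Finset.subset_union_right.trans (Finset.mem_filter.mp hA).2)]
      have h2 := hT (U ∪ T) (Finset.mem_univ _)
      rw [Finset.card_union_of_disjoint hU, pow_add, ← mul_assoc] at h2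
      exact le_of_mul_le_mul_right h2 (by positivity)
    · have : ((F.filter (fun A => T ⊆ A)).image (fun A => A \ T)).filter (fun B => U ⊆ B) = ∅ := by
        rw [Finset.filter_eq_empty_iff]
        intro B hB hUB
        rw [Finset.mem_image] at hB
        obtain ⟨A, _, rfl⟩ := hB
        exact hU (Finset.disjoint_of_subset_left hUB Finset.sdiff_disjoint)
      rw [this]; simp

lemma equal_sums {I Ω : Type*} [Fintype I] [DecidableEq I] [Nonempty I] [Fintype Ω] [DecidableEq Ω]
    [Nonempty Ω] (u : X → I → ℕ) (hu : ∀ x i, u x i ≤ 1) (l : ℕ) (hl2 : 2 ≤ l)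
    (hl : Fintype.card I * l + 1 < 2 ^ l) (A : Finset X)
    (hA : 12 * Fintype.card Ω ^ 2 * l ^ 3 * Fintype.card I ≤ A.card) :
    ∃ B : Ω → Finset X, (∀ ω, B ω ⊆ A ∧ (B ω).Nonempty) ∧
      (∀ ω ω', ω ≠ ω' → Disjoint (B ω) (B ω')) ∧
      ∀ ω ω' i, ∑ x ∈ B ω, u x i = ∑ x ∈ B ω', u x i := by
  set M := Fintype.card I with hM
  set K := Fintype.card Ω with hK
  have hM1 : 1 ≤ M := Fintype.card_pos
  have hK1 : 1 ≤ K := Fintype.card_pos
  set κ := M * l with hκ
  set R := 4 * K ^ 2 * l ^ 2 with hR
  have hκ1 : 1 ≤ κ := by rw [hκ]; nlinarith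
  have hR1 : 1 ≤ R := by
    rw [hR]; have : 1 ≤ K ^ 2 := Nat.one_le_pow _ _ hK1
    have : 1 ≤ l ^ 2 := Nat.one_le_pow _ _ (by omega)
    nlinarith
  have hA' : 3 * R * κ ≤ A.card := by
    calc 3 * R * κ = 12 * K ^ 2 * l ^ 3 * M := by rw [hR, hκ]; ring
      _ ≤ _ := hA
  have hchoose : (2 * R) ^ κ ≤ A.card.choose κ := by
    have h1 := Nat.pow_sub_le_descFactorial A.card κ
    rw [Nat.descFactorial_eq_factorial_mul_choose] at h1
    have h2 : κ.factorial ≤ κ ^ κ := Nat.factorial_le_pow κ
    have h3 : 2 * R * κ ≤ A.card + 1 - κ := by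
      have : κ ≤ R * κ := Nat.le_mul_of_pos_left _ hR1
      have : 3 * R * κ = 2 * R * κ + R * κ := by ring
      omega
    have h4 : (2 * R) ^ κ * κ ^ κ ≤ κ ^ κ * A.card.choose κ := by
      calc (2 * R) ^ κ * κ ^ κ = (2 * R * κ) ^ κ := by rw [← mul_pow]
        _ ≤ (A.card + 1 - κ) ^ κ := Nat.pow_le_pow_left h3 _
        _ ≤ _ := h1
        _ ≤ _ := Nat.mul_le_mul_right _ h2
    rw [mul_comm] at h4
    exact Nat.le_of_mul_le_mul_left h4 (by positivity)
  have hcount : (Fintype.piFinset (fun _ : I => Finset.range (κ + 1))).card * R ^ κ <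
      (A.powersetCard κ).card := by
    rw [Finset.card_powersetCard, Fintype.card_piFinset]
    simp only [Finset.card_range, Finset.prod_const, Finset.card_univ]
    rw [← hM]
    have h1 : (κ + 1) ^ M < 2 ^ κ := by
      calc (κ + 1) ^ M < (2 ^ l) ^ M := Nat.pow_lt_pow_left hl (by omega)
        _ = 2 ^ κ := by rw [← pow_mul, hκ, mul_comm]
    calc (κ + 1) ^ M * R ^ κ < 2 ^ κ * R ^ κ := Nat.mul_lt_mul_of_pos_right h1 (by positivity)
      _ = (2 * R) ^ κ := (mul_pow 2 R κ).symm
      _ ≤ _ := hchoose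
  obtain ⟨y, -, hy⟩ := Finset.exists_lt_card_fiber_of_mul_lt_card_of_maps_to
    (f := fun (S : Finset X) (i : I) => ∑ x ∈ S, u x i) (fun S hS => by
      rw [Fintype.mem_piFinset]
      intro i
      rw [Finset.mem_range, Nat.lt_succ_iff, ← (Finset.mem_powersetCard.mp hS).2]
      calc ∑ x ∈ S, u x i ≤ ∑ _x ∈ S, 1 := Finset.sum_le_sum fun x _ => hu x i
        _ = S.card := by simp) hcount
  obtain ⟨T, hTκ, G, hG, hGF, hspread⟩ := exists_spread_link
    ((A.powersetCard κ).filter (fun S => (fun i => ∑ x ∈ S, u x i) = y)) κ (R : ℝ)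
    (by exact_mod_cast hR1)
    (fun S hS => (Finset.mem_powersetCard.mp (Finset.mem_filter.mp hS).1).2)
    (by exact_mod_cast hy)
  have hGprop : ∀ B ∈ G, B ⊆ A ∧ B.card + T.card = κ ∧
      ∀ i, ∑ x ∈ B, u x i + ∑ x ∈ T, u x i = y i := by
    intro B hB
    obtain ⟨hd, hm⟩ := hGF B hB
    rw [Finset.mem_filter, Finset.mem_powersetCard] at hm
    refine ⟨Finset.subset_union_left.trans hm.1.1, ?_, fun i => ?_⟩
    · rw [← Finset.card_union_of_disjoint hd]; exact hm.1.2
    · rw [← Finset.sum_union hd]; exact congrFun hm.2 i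
  obtain ⟨B, hB, hdisj⟩ := spread_disjoint (Ω := Ω) l hl2 G hG
    (fun S hS => by have := (hGprop S hS).2.1; omega)
    (fun U => by have := hspread U; rw [hR] at this; push_cast at this; exact this)
  refine ⟨B, fun ω => ⟨(hGprop _ (hB ω)).1, ?_⟩, hdisj, fun ω ω' i => ?_⟩
  · rw [← Finset.card_pos]; have := (hGprop _ (hB ω)).2.1; omega
  · have h1 := (hGprop _ (hB ω)).2.2 i
    have h2 := (hGprop _ (hB ω')).2.2 i
    omega

/-- Greedy colouring: all but few points get a colour, and inside each type class all colour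
classes have the same vector sum. -/
lemma greedy_colouring {I Ω Ty : Type*} [Fintype I] [DecidableEq I] [Nonempty I] [Fintype Ω]
    [DecidableEq Ω] [Nonempty Ω] [Fintype Ty] [DecidableEq Ty]
    (u : X → I → ℕ) (hu : ∀ x i, u x i ≤ 1) (l : ℕ) (hl2 : 2 ≤ l)
    (hl : Fintype.card I * l + 1 < 2 ^ l) (τ : X → Ty) (A : Finset X) :
    ∃ col : X → Option Ω, (∀ x, x ∉ A → col x = none) ∧
      (∀ t ω ω' i, ∑ x, (if τ x = t ∧ col x = some ω then u x i else 0) =
        ∑ x, (if τ x = t ∧ col x = some ω' then u x i else 0)) ∧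
      (A.filter (fun x => col x = none)).card ≤
        Fintype.card Ty * (12 * Fintype.card Ω ^ 2 * l ^ 3 * Fintype.card I) := by
  induction A using Finset.strongInduction with
  | H A ih =>
    by_cases hA : A.card ≤ Fintype.card Ty * (12 * Fintype.card Ω ^ 2 * l ^ 3 * Fintype.card I)
    · exact ⟨fun _ => none, fun _ _ => rfl, by simp, by simpa using hA⟩
    · push Not at hA
      obtain ⟨t₀, -, ht₀⟩ := Finset.exists_lt_card_fiber_of_mul_lt_card_of_maps_to
        (s := A) (t := Finset.univ) (f := τ) (fun _ _ => Finset.mem_univ _) hA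
      obtain ⟨B, hB, hdisj, hsum⟩ := equal_sums (Ω := Ω) u hu l hl2 hl _ ht₀.le
      have hBA : ∀ ω, ∀ x ∈ B ω, x ∈ A ∧ τ x = t₀ := fun ω x hx =>
        Finset.mem_filter.mp ((hB ω).1 hx)
      set D := Finset.univ.biUnion B with hD
      have hDmem : ∀ x, x ∈ D ↔ ∃ ω, x ∈ B ω := by intro x; simp [hD]
      have hss : A \ D ⊂ A := by
        refine Finset.sdiff_ssubset (fun x hx => ?_) ?_
        · obtain ⟨ω, hω⟩ := (hDmem x).mp hx
          exact (hBA ω x hω).1
        · obtain ⟨x, hx⟩ := (hB (Classical.arbitrary Ω)).2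
          exact ⟨x, (hDmem x).mpr ⟨_, hx⟩⟩
      obtain ⟨col, hcol0, hcolsum, hcolnone⟩ := ih _ hss
      classical
      let col' : X → Option Ω := fun x =>
        if h : ∃ ω, x ∈ B ω then some (Classical.choose h) else col x
      have hcol'B : ∀ ω x, x ∈ B ω → col' x = some ω := by
        intro ω x hx
        have h : ∃ ω, x ∈ B ω := ⟨ω, hx⟩
        simp only [col', dif_pos h]
        congr 1
        by_contra hne
        exact Finset.disjoint_left.mp (hdisj _ _ hne) (Classical.choose_spec h) hx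
      have hcol'N : ∀ x, (¬ ∃ ω, x ∈ B ω) → col' x = col x := by
        intro x hx
        simp only [col', dif_neg hx]
      have hcolB : ∀ ω x, x ∈ B ω → col x = none := by
        intro ω x hx
        apply hcol0
        rw [Finset.mem_sdiff, not_and, not_not]
        exact fun _ => (hDmem x).mpr ⟨ω, hx⟩
      have key : ∀ t ω i, ∑ x, (if τ x = t ∧ col' x = some ω then u x i else 0) =
          ∑ x, (if τ x = t ∧ col x = some ω then u x i else 0) +
            (if t₀ = t then ∑ x ∈ B ω, u x i else 0) := by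
        intro t ω i
        have : (if t₀ = t then ∑ x ∈ B ω, u x i else 0) =
            ∑ x, (if t₀ = t ∧ x ∈ B ω then u x i else 0) := by
          by_cases ht : t₀ = t
          · simp [ht]
          · simp [ht]
        rw [this, ← Finset.sum_add_distrib]
        refine Finset.sum_congr rfl fun x _ => ?_
        by_cases hx : ∃ ω, x ∈ B ω
        · obtain ⟨ω', hω'⟩ := hx
          rw [hcol'B ω' x hω', hcolB ω' x hω', (hBA ω' x hω').2]
          by_cases hωω : ω' = ω
          · subst hωω; simp [hω']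
          · have : x ∉ B ω := fun h => Finset.disjoint_left.mp (hdisj _ _ hωω) hω' h
            simp [hωω, this]
        · rw [hcol'N x hx]
          have : x ∉ B ω := fun h => hx ⟨ω, h⟩
          simp [this]
      refine ⟨col', fun x hx => ?_, fun t ω ω' i => ?_, le_trans (Finset.card_le_card ?_) hcolnone⟩
      · have : ¬ ∃ ω, x ∈ B ω := fun ⟨ω, hω⟩ => hx (hBA ω x hω).1
        rw [hcol'N x this]
        exact hcol0 x (fun h => hx (Finset.mem_sdiff.mp h).1)
      · rw [key, key, hcolsum t ω ω' i, hsum ω ω' i]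
      · intro x hx
        rw [Finset.mem_filter] at hx ⊢
        have : ¬ ∃ ω, x ∈ B ω := by
          rintro ⟨ω, hω⟩
          rw [hcol'B ω x hω] at hx
          simp at hx
        rw [hcol'N x this] at hx
        exact ⟨Finset.mem_sdiff.mpr ⟨hx.1, fun h => this ((hDmem x).mp h)⟩, hx.2⟩

end

end Crest.Agent.R63
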