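import Crest.Agent.R63.Step

/-!
A balanced Boolean function whose linear coefficient sum beats the square root of its degree,
and its tensor powers.
-/

set_option autoImplicit false
set_option linter.unusedSectionVars false

namespace Crest.Agent.R63

open Finset Filter

lemma sum_card_true (n : ℕ) (F : ℕ → ℝ) :
    ∑ x : Fin n → Bool, F (Finset.univ.filter (fun i => x i = true)).card =
      ∑ j ∈ Finset.range (n + 1), (n.choose j : ℝ) * F j := by
  let e : (Fin n → Bool) ≃ Finset (Fin n) :=
    { toFun := fun x => Finset.univ.filter (fun i => x i = true)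
      invFun := fun S i => decide (i ∈ S)
      left_inv := fun x => by ext i; simp
      right_inv := fun S => by ext i; simp }
  have h1 : ∑ x : Fin n → Bool, F (Finset.univ.filter (fun i => x i = true)).card =
      ∑ S : Finset (Fin n), F S.card := Equiv.sum_comp e (fun S => F S.card)
  rw [h1, ← Finset.powerset_univ, Finset.sum_powerset_apply_card]
  simp

lemma sum_choose_tel (n h : ℕ) (hh : h ≤ n) :
    ∑ j ∈ Finset.range h, (n.choose j : ℝ) * (n - 2 * j) = h * n.choose h := by
  induction h with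
  | zero => simp
  | succ h ih =>
    rw [Finset.sum_range_succ, ih (by omega)]
    have h1 := Nat.choose_succ_right_eq n h
    have h2 : (n.choose (h + 1) : ℝ) * (h + 1) = n.choose h * (n - h) := by
      have : ((n - h : ℕ) : ℝ) = n - h := by rw [Nat.cast_sub (by omega)]
      rw [← this]; exact_mod_cast h1
    push_cast
    linarith

lemma E_abs_Ssum (k : ℕ) :
    E (fun x : Fin (2 * k) → Bool => |Ssum x|) = 2 * k * (k.centralBinom : ℝ) / 4 ^ k := by
  have e : (fun x : Fin (2 * k) → Bool => |Ssum x|) = fun x => Ssum x +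
      2 * (if (Finset.univ.filter (fun i => x i = true)).card < k then
        ((2 * k : ℕ) : ℝ) - 2 * ((Finset.univ.filter (fun i => x i = true)).card : ℝ) else 0) := by
    ext x
    rw [Ssum_eq_card, Fintype.card_fin]
    set c := (Finset.univ.filter (fun i => x i = true)).card
    push_cast
    split_ifs with h
    · have : (c : ℝ) < k := by exact_mod_cast h
      rw [abs_of_neg (by linarith)]; ring
    · have : (k : ℝ) ≤ c := by exact_mod_cast not_lt.mp h
      rw [abs_of_nonneg (by linarith)]; ring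
  rw [e, E_add, E_Ssum, E_const_mul, zero_add]
  unfold E
  rw [sum_card_true (2 * k) (fun c => if c < k then ((2 * k : ℕ) : ℝ) - 2 * (c : ℝ) else 0)]
  have h1 : ∑ j ∈ Finset.range (2 * k + 1), ((2 * k).choose j : ℝ) *
      (if j < k then ((2 * k : ℕ) : ℝ) - 2 * (j : ℝ) else 0) =
      ∑ j ∈ Finset.range k, ((2 * k).choose j : ℝ) * (((2 * k : ℕ) : ℝ) - 2 * j) := by
    simp_rw [mul_ite, mul_zero]
    rw [← Finset.sum_filter]
    congr 1
    ext j; simp; omega
  rw [h1, sum_choose_tel _ _ (by omega), Nat.centralBinom_eq_two_mul_choose]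
  have : (Fintype.card (Fin (2 * k) → Bool) : ℝ) = 4 ^ k := by
    simp [pow_mul]
  rw [this]; ring

lemma centralBinom_lower (k : ℕ) (hk : 5 ≤ k) :
    (3 / 10 : ℝ) * 16 ^ k ≤ k * (k.centralBinom : ℝ) ^ 2 := by
  induction k, hk using Nat.le_induction with
  | base => norm_num [Nat.centralBinom, Nat.choose]
  | succ k hk ih =>
    have h1 : ((k : ℝ) + 1) * ((k + 1).centralBinom : ℝ) = 2 * (2 * k + 1) * k.centralBinom := by
      exact_mod_cast Nat.succ_mul_centralBinom_succ k
    have hk0 : (0 : ℝ) < k + 1 := by positivity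
    push_cast
    refine le_of_mul_le_mul_left ?_ hk0
    have h2 : ((k : ℝ) + 1) * ((k + 1) * ((k + 1).centralBinom : ℝ) ^ 2) =
        (2 * (2 * k + 1)) ^ 2 * (k.centralBinom : ℝ) ^ 2 := by
      rw [← mul_pow, ← h1]; ring
    rw [h2, pow_succ]
    have h3 : (0 : ℝ) ≤ (k.centralBinom : ℝ) ^ 2 := by positivity
    nlinarith

lemma E_abs_Ssum_sq (n : ℕ) (hn : 10 ≤ n) (he : Even n) :
    (3 / 5 : ℝ) * n ≤ (E (fun x : Fin n → Bool => |Ssum x|)) ^ 2 := by
  obtain ⟨k, rfl⟩ := he
  rw [← two_mul] at hn ⊢
  rw [E_abs_Ssum, div_pow, le_div_iff₀ (by positivity)]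
  have h := centralBinom_lower k (by omega)
  have e : ((4 : ℝ) ^ k) ^ 2 = 16 ^ k := by rw [← pow_mul, mul_comm, pow_mul]; norm_num
  rw [e]
  push_cast
  have hk : (0 : ℝ) ≤ k := Nat.cast_nonneg k
  nlinarith

/-- A balanced Boolean function of degree at most `d` with linear coefficient sum `L`. -/
structure Good {ι : Type*} [Fintype ι] [DecidableEq ι] (f : (ι → Bool) → Bool) (d : ℕ) (L : ℝ) :
    Prop where
  deg : (fun x => sg (f x)) ∈ Deg ι d
  bal : E (fun x => sg (f x)) = 0
  lin : E (fun x => sg (f x) * Ssum x) = L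

section
variable {ι κ : Type*} [Fintype ι] [DecidableEq ι] [Fintype κ] [DecidableEq κ]

lemma Good.reindex {f : (ι → Bool) → Bool} {d : ℕ} {L : ℝ} (h : Good f d L) (σ : ι ≃ κ) :
    Good (fun x : κ → Bool => f (fun i => x (σ i))) d L := by
  let τ : (κ → Bool) ≃ (ι → Bool) := Equiv.arrowCongr σ.symm (Equiv.refl Bool)
  have hτ : ∀ x, τ x = fun i => x (σ i) := fun x => by ext i; simp [τ]
  refine ⟨reindex_mem h.deg σ, ?_, ?_⟩
  · rw [← h.bal, ← E_equiv τ]; simp only [hτ]
  · rw [← h.lin, ← E_equiv τ]
    congr 1; ext x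
    rw [hτ]
    unfold Ssum
    rw [Equiv.sum_comp σ (fun i => sg (x i))]

lemma ite_eq_sg (c b : Bool) (w : ℝ) : (if c = b then w else 0) = (w + sg b * (sg c * w)) / 2 := by
  cases c <;> cases b <;> simp

lemma Good.comp {f : (ι → Bool) → Bool} {d : ℕ} {L : ℝ} (hf : Good f d L)
    {h : (κ → Bool) → Bool} {e : ℕ} {M : ℝ} (hh : Good h e M) :
    Good (fun x : ι × κ → Bool => f (fun i => h (fun a => x (i, a)))) (d * e) (L * M) := by
  set N : ℝ := (Fintype.card (κ → Bool) : ℝ) with hN
  have hN0 : 0 < N := by rw [hN]; exact_mod_cast Fintype.card_pos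
  have hb : ∑ a, sg (h a) = 0 := by
    have := hh.bal; unfold E at this
    rw [← hN] at this
    exact (div_eq_zero_iff.mp this).resolve_right hN0.ne'
  have hl : ∑ a, sg (h a) * Ssum a = M * N := by
    have := hh.lin; unfold E at this
    rw [← hN, div_eq_iff hN0.ne'] at this; exact this
  have hS : ∑ a : κ → Bool, Ssum a = 0 := by
    have := E_Ssum (ι := κ); unfold E at this
    rw [← hN] at this
    exact (div_eq_zero_iff.mp this).resolve_right hN0.ne'
  have hw1 : ∀ b, (∑ a, if h a = b then (1 : ℝ) else 0) = N / 2 := by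
    intro b
    simp_rw [ite_eq_sg, mul_one]
    rw [← Finset.sum_div, Finset.sum_add_distrib, ← Finset.mul_sum, hb]
    simp [hN]
  have hw2 : ∀ b, (∑ a, if h a = b then Ssum a else 0) = N / 2 * (M * sg b) := by
    intro b
    simp_rw [ite_eq_sg]
    rw [← Finset.sum_div, Finset.sum_add_distrib, ← Finset.mul_sum, hl, hS]; ring
  have hcard : (Fintype.card (ι → κ → Bool) : ℝ) =
      (N / 2) ^ Fintype.card ι * Fintype.card (ι → Bool) := by
    rw [Fintype.card_fun (α := ι) (β := κ → Bool), Fintype.card_fun (α := ι) (β := Bool)]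
    push_cast
    rw [← hN, ← mul_pow]; simp
  have hc0 : (0 : ℝ) < (N / 2) ^ Fintype.card ι := by positivity
  refine ⟨comp_mem hf.deg _ (fun i => reindex_mem hh.deg (fun a => (i, a))), ?_, ?_⟩
  · have e1 : E (fun x : ι × κ → Bool => sg (f (fun i => h (fun a => x (i, a))))) =
        E (fun z : ι → κ → Bool => sg (f (fun i => h (z i)))) := by
      rw [← E_equiv (Equiv.curry ι κ Bool)]; rfl
    rw [e1, ← hf.bal]
    have := sum_pi_push (ι := ι) (fun _ _ => (1 : ℝ)) (fun _ => h) (fun y => sg (f y))
    simp_rw [hw1] at this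
    simp only [Finset.prod_const_one, one_mul, Finset.prod_const, Finset.card_univ] at this
    unfold E
    rw [this, hcard, ← Finset.mul_sum, mul_div_mul_left _ _ hc0.ne']
  · have e1 : E (fun x : ι × κ → Bool => sg (f (fun i => h (fun a => x (i, a)))) * Ssum x) =
        E (fun z : ι → κ → Bool => ∑ i, sg (f (fun i => h (z i))) * Ssum (z i)) := by
      rw [← E_equiv (Equiv.curry ι κ Bool)]
      congr 1; ext x
      rw [← Finset.mul_sum]
      congr 1
      unfold Ssum; rw [Fintype.sum_prod_type]; rfl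
    have e2 : L * M = E (fun y : ι → Bool => ∑ i, M * (sg (f y) * sg (y i))) := by
      rw [← hf.lin, mul_comm, ← E_const_mul]
      congr 1; ext y
      unfold Ssum
      rw [Finset.mul_sum, Finset.mul_sum]
    rw [e1, e2, E_sum, E_sum]
    refine Finset.sum_congr rfl fun i _ => ?_
    have := sum_pi_push (ι := ι) (fun j (a : κ → Bool) => if j = i then Ssum a else (1 : ℝ))
      (fun _ => h) (fun y => sg (f y))
    have h3 : ∀ y : ι → Bool, (∏ j, ∑ a, if h a = y j then (if j = i then Ssum a else (1 : ℝ)) else 0)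
        = (N / 2) ^ Fintype.card ι * (M * sg (y i)) := by
      intro y
      have : ∀ j, (∑ a, if h a = y j then (if j = i then Ssum a else (1 : ℝ)) else 0) =
          N / 2 * (if j = i then M * sg (y j) else 1) := by
        intro j
        by_cases hj : j = i
        · simp only [hj, if_true]; exact hw2 _
        · simp only [hj, if_false]; rw [hw1, mul_one]
      simp_rw [this]
      rw [Finset.prod_mul_distrib, Finset.prod_const, Finset.card_univ, Finset.prod_ite_eq']
      simp
    simp_rw [h3] at this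
    simp only [Finset.prod_ite_eq', Finset.mem_univ, if_true] at this
    unfold E
    simp_rw [mul_comm (sg (f _)) (Ssum _)]
    rw [this, hcard]
    simp_rw [mul_assoc]
    rw [← Finset.mul_sum, mul_div_mul_left _ _ hc0.ne']
    congr 1
    refine Finset.sum_congr rfl fun y _ => by ring

lemma balance (f : (ι → Bool) → Bool) (d : ℕ) (hf : (fun x => sg (f x)) ∈ Deg ι d) :
    ∃ (f' : (Option ι → Bool) → Bool) (L : ℝ), Good f' (d + 1) L ∧
      E (fun x => sg (f x) * Ssum x) - 1 ≤ L := by
  let f' : (Option ι → Bool) → Bool := fun x =>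
    if x none then f (fun i => x (some i)) else !(f (fun i => !(x (some i))))
  let neg : (ι → Bool) ≃ (ι → Bool) :=
    { toFun := fun x i => !(x i)
      invFun := fun x i => !(x i)
      left_inv := fun x => by ext i; simp
      right_inv := fun x => by ext i; simp }
  have hE : ∀ F : (Option ι → Bool) → ℝ, E F =
      (E (fun x : ι → Bool => F (fun o => o.elim true x)) +
        E (fun x : ι → Bool => F (fun o => o.elim false (fun i => !(x i))))) / 2 := by
    intro F
    rw [← E_equiv (Equiv.piOptionEquivProd (β := fun _ : Option ι => Bool)).symm F, E_prod]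
    have h1 : E (fun x : ι → Bool => F (fun o => o.elim false (fun i => !(x i)))) =
        E (fun x : ι → Bool => F (fun o => o.elim false x)) :=
      E_equiv neg (fun x => F (fun o => o.elim false x))
    rw [h1]
    have h2 : ∀ (b : Bool) (x : ι → Bool),
        (Equiv.piOptionEquivProd (β := fun _ : Option ι => Bool)).symm (b, x) =
          fun o => o.elim b x := by
      intro b x; ext o; cases o <;> rfl
    simp_rw [h2]
    rw [E]
    simp
  refine ⟨f', E (fun x => sg (f' x) * Ssum x), ⟨?_, ?_, rfl⟩, ?_⟩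
  · have e : (fun x => sg (f' x)) = fun x : Option ι → Bool =>
        sg (f (fun i => x (some i))) * ((1 + sg (x none)) / 2) -
          sg (f (fun i => !(x (some i)))) * ((1 - sg (x none)) / 2) := by
      ext x
      simp only [f']
      cases x none <;> simp [sg_not]
    rw [e]
    refine sub_mem' (mul_mem (reindex_mem hf some) (div_const_mem _ (add_mem' (const_mem _ _)
      (sg_coord_mem _)))) (mul_mem ?_ (div_const_mem _ (sub_mem' (const_mem _ _) (sg_coord_mem _))))
    simpa using comp_mem hf (fun (x : Option ι → Bool) i => !(x (some i))) (e := 1)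
      (fun i => by simp_rw [sg_not]; exact neg_mem' (sg_coord_mem _))
  · rw [hE]
    simp only [f', Option.elim, if_true, Bool.not_not, sg_not, Bool.false_eq_true, if_false]
    rw [← E_add]; simp [E]
  · rw [hE]
    simp only [f', Option.elim, if_true, Bool.not_not, sg_not, Bool.false_eq_true, if_false,
      Ssum, Fintype.sum_option, sg_true, sg_false]
    have e : E (fun x : ι → Bool => sg (f x) * ∑ i, sg (x i)) - 1 =
        E (fun x : ι → Bool => sg (f x) * ∑ i, sg (x i) - 1) := by
      rw [E_sub, E_const]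
    rw [← E_add, le_div_iff₀ (by norm_num), e, ← E_mul_const]
    refine E_mono fun x => ?_
    rw [Finset.sum_neg_distrib]
    cases f x <;> simp <;> linarith

end

lemma exists_gadget : ∃ (n d : ℕ) (f : (Fin n → Bool) → Bool) (L : ℝ),
    Good f d L ∧ 1 ≤ d ∧ 0 < L ∧ (d : ℝ) < L ^ 2 := by
  obtain ⟨n, D, g, hn, he, hD1, hD, hg⟩ := ach_final (1 / 1000000) (by norm_num) 1000000
  let f : (Fin n → Bool) → Bool := fun x => decide (0 ≤ g x)
  obtain ⟨f', L, hf', hL⟩ := balance f D (hg.deg (fun r => sg (decide (0 ≤ r))))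
  have hn' : (1000000 : ℝ) ≤ n := by exact_mod_cast hn
  have h1 : E (fun x : Fin n → Bool => |Ssum x|) - 2 * E (fun x => |Ssum x - g x|) ≤
      E (fun x => sg (f x) * Ssum x) := by
    rw [← E_const_mul, ← E_sub]
    refine E_mono fun x => ?_
    have h2 := le_abs_self (Ssum x - g x)
    have h3 := neg_abs_le (Ssum x - g x)
    by_cases hx : 0 ≤ g x
    · simp only [f, hx, decide_true, sg_true, one_mul]
      rcases abs_cases (Ssum x) with h | h <;> linarith [h.1]
    · simp only [f, hx, decide_false, sg_false]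
      push Not at hx
      rcases abs_cases (Ssum x) with h | h <;> linarith [h.1]
  have h2 := E_abs_Ssum_sq n (by omega) he
  have h3 : (E (fun x => |Ssum x - g x|)) ^ 2 ≤ 1 / 1000000 * n := by
    refine (E_sq_le _).trans (le_of_eq_of_le ?_ hg.err)
    simp_rw [sq_abs]
  set u := Real.sqrt n with hu
  have hu2 : u ^ 2 = n := Real.sq_sqrt (by positivity)
  have hu0 : 0 ≤ u := Real.sqrt_nonneg _
  have hu1 : 1000 ≤ u := by
    rw [hu]; apply Real.le_sqrt_of_sq_le; linarith
  have h4 : 0.7745 * u ≤ E (fun x : Fin n → Bool => |Ssum x|) := by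
    refine le_of_sq_le_sq ?_ (E_nonneg fun x => abs_nonneg _)
    nlinarith
  have h5 : E (fun x => |Ssum x - g x|) ≤ 0.001 * u := by
    refine le_of_sq_le_sq ?_ (by positivity)
    nlinarith
  have h6 : 0.7715 * u ≤ L := by linarith
  refine ⟨_, D + 1, _, L, hf'.reindex (Fintype.equivFin _), by omega, by linarith, ?_⟩
  push_cast
  have h7 : (0.7715 * u) ^ 2 ≤ L ^ 2 := pow_le_pow_left₀ (by positivity) h6 2
  nlinarith

lemma exists_power {n d : ℕ} {f : (Fin n → Bool) → Bool} {L : ℝ} (hf : Good f d L) (k : ℕ) :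
    ∃ (m : ℕ) (F : (Fin m → Bool) → Bool), Good F (d ^ (k + 1)) (L ^ (k + 1)) := by
  induction k with
  | zero => exact ⟨n, f, by simpa using hf⟩
  | succ k ih =>
    obtain ⟨m, F, hF⟩ := ih
    rw [pow_succ d, pow_succ L]
    exact ⟨_, _, (hF.comp hf).reindex (Fintype.equivFin _)⟩

theorem main (C : ℝ) (hC : 0 < C) : ∃ (n d : ℕ) (f : (Fin n → Bool) → Bool) (L : ℝ),
    Good f d L ∧ C * Real.sqrt d < L := by
  obtain ⟨n, d, f, L, hf, hd, hL, hdL⟩ := exists_gadget
  have hd' : (0 : ℝ) < d := by exact_mod_cast hd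
  have hr : 1 < L ^ 2 / d := by rw [one_lt_div hd']; exact hdL
  obtain ⟨k, hk⟩ := ((tendsto_pow_atTop_atTop_of_one_lt hr).eventually_gt_atTop (C ^ 2)).exists_forall_of_atTop
  obtain ⟨m, F, hF⟩ := exists_power hf k
  refine ⟨m, _, F, _, hF, ?_⟩
  have h1 := hk (k + 1) (by omega)
  rw [div_pow, lt_div_iff₀ (by positivity)] at h1
  refine lt_of_pow_lt_pow_left₀ 2 (by positivity) ?_
  rw [mul_pow, Real.sq_sqrt (by positivity)]
  push_cast
  rw [← pow_mul, mul_comm (k + 1) 2, pow_mul]
  exact h1

end Crest.Agent.R63
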