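import Crest.Agent.R63.EqualSum

/-!
Colouring almost all points of every slice of the cube so that differences of colour classes
inside a slice have degree at most `5/9` of the dimension.
-/

set_option autoImplicit false
set_option linter.unusedSectionVars false

namespace Crest.Agent.R63

open Finset

/-- Number of true bits. -/
def lev {s : ℕ} (a : Fin s → Bool) : Fin (s + 1) :=
  ⟨(Finset.univ.filter (fun i => a i = true)).card, by
    have := Finset.card_le_univ (Finset.univ.filter (fun i => a i = true))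
    simp only [Fintype.card_fin] at this
    omega⟩

lemma Ssum_eq_card {ι : Type*} [Fintype ι] (a : ι → Bool) :
    Ssum a = 2 * ((Finset.univ.filter (fun i => a i = true)).card : ℝ) - Fintype.card ι := by
  unfold Ssum
  have : ∀ i, sg (a i) = 2 * (if a i = true then (1 : ℝ) else 0) - 1 := by
    intro i; cases a i <;> simp <;> norm_num
  simp_rw [this]
  rw [Finset.sum_sub_distrib, ← Finset.mul_sum]
  simp

lemma Ssum_eq_lev {s : ℕ} (a : Fin s → Bool) : Ssum a = 2 * ((lev a : ℕ) : ℝ) - s := by
  rw [Ssum_eq_card]; simp [lev]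

lemma chi_eq_one_or {ι : Type*} (T : Finset ι) (a : ι → Bool) : chi T a = 1 ∨ chi T a = -1 := by
  classical
  have h := chi_mul_chi T T a
  rw [symmDiff_self] at h
  have h1 : chi (⊥ : Finset ι) a = 1 := by simp [chi]
  rw [h1] at h
  exact mul_self_eq_one_iff.mp h

lemma card_high_le (k : ℕ) :
    (((Finset.univ : Finset (Finset (Fin (9 * k)))).filter (fun T => 5 * k < T.card)).card : ℝ) ≤
      485 ^ k := by
  have h1 := Fintype.sum_pow_mul_eq_add_pow (Fin (9 * k)) (5 / 4 : ℝ) 1
  simp only [one_pow, mul_one, Fintype.card_fin] at h1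
  have h2 : (((Finset.univ : Finset (Finset (Fin (9 * k)))).filter
      (fun T => 5 * k < T.card)).card : ℝ) * (5 / 4) ^ (5 * k) ≤ (5 / 4 + 1) ^ (9 * k) := by
    rw [← h1]
    calc _ = ∑ T ∈ (Finset.univ : Finset (Finset (Fin (9 * k)))).filter (fun T => 5 * k < T.card),
          (5 / 4 : ℝ) ^ (5 * k) := by simp
      _ ≤ ∑ T ∈ (Finset.univ : Finset (Finset (Fin (9 * k)))).filter (fun T => 5 * k < T.card),
          (5 / 4 : ℝ) ^ T.card := Finset.sum_le_sum fun T hT =>
            pow_le_pow_right₀ (by norm_num) (Finset.mem_filter.mp hT).2.le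
      _ ≤ _ := Finset.sum_le_sum_of_subset_of_nonneg (Finset.filter_subset _ _)
            fun _ _ _ => by positivity
  have h3 : (5 / 4 + 1 : ℝ) ^ (9 * k) ≤ 485 ^ k * (5 / 4) ^ (5 * k) := by
    rw [pow_mul, pow_mul, ← mul_pow]
    exact pow_le_pow_left₀ (by positivity) (by norm_num) _
  exact le_of_mul_le_mul_right (h2.trans h3) (by positivity)

lemma slice_colouring (k : ℕ) (Ω : Type*) [Fintype Ω] [DecidableEq Ω] [Nonempty Ω] :
    ∃ col : (Fin (9 * k) → Bool) → Option Ω,
      (∀ w ω ω', (fun a => (if lev a = w ∧ col a = some ω then (1 : ℝ) else 0) -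
        (if lev a = w ∧ col a = some ω' then (1 : ℝ) else 0)) ∈ Deg (Fin (9 * k)) (5 * k)) ∧
      (∀ ω ω', (Finset.univ.filter (fun a => col a = some ω)).card =
        (Finset.univ.filter (fun a => col a = some ω')).card) ∧
      ((Finset.univ.filter (fun a => col a = none)).card : ℝ) ≤
        (9 * k + 1) * (12 * (Fintype.card Ω : ℝ) ^ 2 * (18 * k + 2) ^ 3 * (2 * 485 ^ k)) := by
  classical
  let I := {T : Finset (Fin (9 * k)) // 5 * k < T.card ∨ T = ∅}
  have : Nonempty I := ⟨⟨∅, Or.inr rfl⟩⟩
  let u : (Fin (9 * k) → Bool) → I → ℕ := fun a T => if chi T.1 a = 1 then 1 else 0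
  have hu : ∀ a T, u a T ≤ 1 := fun a T => by simp only [u]; split_ifs <;> omega
  have hI1 : Fintype.card I ≤ 2 ^ (9 * k) := by
    have := Fintype.card_subtype_le (fun T : Finset (Fin (9 * k)) => 5 * k < T.card ∨ T = ∅)
    simpa using this
  have hI2 : (Fintype.card I : ℝ) ≤ 2 * 485 ^ k := by
    have h1 : Fintype.card I ≤ ((Finset.univ : Finset (Finset (Fin (9 * k)))).filter
        (fun T => 5 * k < T.card)).card + 1 := by
      rw [Fintype.card_subtype, Finset.filter_or]
      refine le_trans (Finset.card_union_le _ _) (Nat.add_le_add_left ?_ _)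
      rw [Finset.card_le_one]
      intro a ha b hb
      rw [(Finset.mem_filter.mp ha).2, (Finset.mem_filter.mp hb).2]
    have h2 := card_high_le k
    have h3 : (1 : ℝ) ≤ 485 ^ k := one_le_pow₀ (by norm_num)
    have h4 : (Fintype.card I : ℝ) ≤ (((Finset.univ : Finset (Finset (Fin (9 * k)))).filter
        (fun T => 5 * k < T.card)).card : ℝ) + 1 := by exact_mod_cast h1
    linarith
  have hl : Fintype.card I * (18 * k + 2) + 1 < 2 ^ (18 * k + 2) := by
    have h1 : 9 * k < 2 ^ (9 * k) := Nat.lt_two_pow_self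
    have h2 : 2 ^ (18 * k + 2) = 4 * (2 ^ (9 * k) * 2 ^ (9 * k)) := by
      rw [← pow_add, pow_add 2 (18 * k) 2]; ring_nf
    rw [h2]
    set N := 2 ^ (9 * k)
    have h3 : Fintype.card I * (18 * k + 2) ≤ N * (2 * N) := Nat.mul_le_mul hI1 (by omega)
    nlinarith
  obtain ⟨col, -, hsum, hnone⟩ := greedy_colouring (Ω := Ω) u hu (18 * k + 2) (by omega) hl
    (lev (s := 9 * k)) Finset.univ
  have hcard : ∀ w ω ω', ∑ a, (if lev a = w ∧ col a = some ω then (1 : ℝ) else 0) =
      ∑ a, (if lev a = w ∧ col a = some ω' then (1 : ℝ) else 0) := by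
    intro w ω ω'
    have := hsum w ω ω' ⟨∅, Or.inr rfl⟩
    simp only [u, chi, Finset.prod_empty, if_true] at this
    exact_mod_cast this
  refine ⟨col, fun w ω ω' => mem_of_coeff fun T hT => ?_, fun ω ω' => ?_, ?_⟩
  · have h1 := hsum w ω ω' ⟨T, Or.inl hT⟩
    have h2 : ∀ ω, ∑ a, (if lev a = w ∧ col a = some ω then (1 : ℝ) else 0) * chi T a =
        2 * ((∑ a, (if lev a = w ∧ col a = some ω then u a ⟨T, Or.inl hT⟩ else 0) : ℕ) : ℝ) -
          ∑ a, (if lev a = w ∧ col a = some ω then (1 : ℝ) else 0) := by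
      intro ω
      push_cast
      rw [Finset.mul_sum, ← Finset.sum_sub_distrib]
      refine Finset.sum_congr rfl fun a _ => ?_
      split_ifs with h
      · simp only [u]
        rcases chi_eq_one_or T a with h' | h'
        · rw [h']; norm_num
        · rw [h']; norm_num
      · simp
    simp_rw [sub_mul]
    rw [Finset.sum_sub_distrib, h2, h2, h1, hcard w ω ω', sub_self]
  · have h1 : ∀ ω, ((Finset.univ.filter (fun a => col a = some ω)).card : ℝ) =
        ∑ w, ∑ a, (if lev a = w ∧ col a = some ω then (1 : ℝ) else 0) := by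
      intro ω
      rw [Finset.sum_comm, Finset.card_filter]
      push_cast
      refine Finset.sum_congr rfl fun a _ => ?_
      by_cases h : col a = some ω <;> simp [h]
    have : ((Finset.univ.filter (fun a => col a = some ω)).card : ℝ) =
        ((Finset.univ.filter (fun a => col a = some ω')).card : ℝ) := by
      rw [h1, h1]
      exact Finset.sum_congr rfl fun w _ => hcard w ω ω'
    exact_mod_cast this
  · have h1 : ((Finset.univ.filter (fun a => col a = none)).card : ℝ) ≤
        ((Fintype.card (Fin (9 * k + 1)) *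
          (12 * Fintype.card Ω ^ 2 * (18 * k + 2) ^ 3 * Fintype.card I) : ℕ) : ℝ) := by
      exact_mod_cast hnone
    refine h1.trans ?_
    push_cast
    rw [Fintype.card_fin]
    push_cast
    gcongr

end Crest.Agent.R63
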