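import Crest.Agent.R63.Cheb

/-!
Sketches of the bit sum, and the randomised low-degree estimator built from Chebyshev tests.
-/

set_option autoImplicit false
set_option linter.unusedSectionVars false

namespace Crest.Agent.R63

open Finset

/-- A rational, centred statistic all of whose functions have degree at most `D` and which
approximates the bit sum in mean square with error `e`. -/
structure IsSketch {ι : Type*} [Fintype ι] [DecidableEq ι] (g : (ι → Bool) → ℝ) (D : ℕ) (e : ℝ) :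
    Prop where
  rat : ∀ x, ∃ r : ℚ, g x = r
  deg : ∀ φ : ℝ → ℝ, (fun x => φ (g x)) ∈ Deg ι D
  mean : E g = 0
  err : E (fun x => (Ssum x - g x) ^ 2) ≤ e

section
variable {ι : Type*} [Fintype ι] [DecidableEq ι]

lemma IsSketch.reindex {κ : Type*} [Fintype κ] [DecidableEq κ] {g : (ι → Bool) → ℝ} {D : ℕ} {e : ℝ}
    (h : IsSketch g D e) (σ : ι ≃ κ) : IsSketch (fun x : κ → Bool => g (fun i => x (σ i))) D e := by
  let τ : (κ → Bool) ≃ (ι → Bool) := Equiv.arrowCongr σ.symm (Equiv.refl Bool)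
  have hτ : ∀ x, τ x = fun i => x (σ i) := fun x => by ext i; simp [τ]
  refine ⟨fun x => h.rat _, fun φ => reindex_mem (h.deg φ) σ, ?_, ?_⟩
  · rw [← h.mean, ← E_equiv τ g]; simp only [hτ]
  · refine le_of_eq_of_le ?_ h.err
    rw [← E_equiv τ]
    congr 1; ext x
    rw [hτ]
    unfold Ssum
    rw [Equiv.sum_comp σ (fun i => sg (x i))]

lemma exists_den (g : (ι → Bool) → ℝ) (hg : ∀ x, ∃ r : ℚ, g x = r) :
    ∃ q : ℕ, 0 < q ∧ ∀ x, ∃ a : ℤ, (q : ℝ) * g x = a := by
  choose r hr using hg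
  refine ⟨∏ x, (r x).den, Finset.prod_pos fun x _ => (r x).den_pos, fun x => ?_⟩
  rw [← Finset.mul_prod_erase _ _ (Finset.mem_univ x)]
  refine ⟨(r x).num * ((∏ y ∈ Finset.univ.erase x, (r y).den : ℕ) : ℤ), ?_⟩
  rw [hr x]
  have h : ((r x).den : ℝ) * (r x : ℝ) = (r x).num := by
    have := Rat.den_mul_eq_num (r x)
    exact_mod_cast this
  rw [Nat.cast_mul, Int.cast_mul, Int.cast_natCast, ← h]; ring

lemma exists_bound (g : (ι → Bool) → ℝ) : ∃ B : ℕ, 1 ≤ B ∧ ∀ x, |g x| ≤ B := by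
  obtain ⟨n, hn⟩ := exists_nat_ge (∑ x, |g x|)
  refine ⟨n + 1, by omega, fun x => ?_⟩
  have := Finset.single_le_sum (f := fun x => |g x|) (fun _ _ => abs_nonneg _) (Finset.mem_univ x)
  push_cast; linarith

lemma letters_mem {g : (ι → Bool) → ℝ} {D : ℕ} (hg : ∀ φ : ℝ → ℝ, (fun x => φ (g x)) ∈ Deg ι D)
    (J : ℕ) (Φ : (Fin J → ℝ) → ℝ) :
    (fun x : Fin J × ι → Bool => Φ (fun i => g (fun a => x (i, a)))) ∈ Deg (Fin J × ι) (J * D) := by
  classical
  set V := Finset.univ.image g with hV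
  have e : (fun x : Fin J × ι → Bool => Φ (fun i => g (fun a => x (i, a)))) =
      fun x => ∑ v ∈ Fintype.piFinset (fun _ : Fin J => V),
        Φ v * ∏ i, (if g (fun a => x (i, a)) = v i then (1 : ℝ) else 0) := by
    ext x
    rw [Finset.sum_eq_single (fun i => g (fun a => x (i, a)))]
    · simp
    · intro v _ hv
      have : ∃ i, g (fun a => x (i, a)) ≠ v i := by
        by_contra hc; push Not at hc; exact hv (funext fun i => (hc i).symm)
      obtain ⟨i, hi⟩ := this
      rw [Finset.prod_eq_zero (Finset.mem_univ i) (by simp [hi]), mul_zero]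
    · intro h; exfalso; apply h
      rw [Fintype.mem_piFinset]; intro i; simp [hV]
  rw [e]
  refine sum_mem' _ fun v _ => const_mul_mem _ ?_
  have := prod_mem' (Finset.univ : Finset (Fin J))
    (f := fun i (x : Fin J × ι → Bool) => if g (fun a => x (i, a)) = v i then (1 : ℝ) else 0)
    (fun i _ => reindex_mem (hg (fun r => if r = v i then 1 else 0)) (fun a => (i, a)))
  simpa using this

lemma count_lt (K h : ℕ) (hh : h ≤ K) (b : Bool) :
    (∑ a : Fin K, if decide (a.val < h) = b then (1 : ℝ) else 0) =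
      if b then (h : ℝ) else (K : ℝ) - h := by
  have h1 : (∑ a : Fin K, if a.val < h then (1 : ℝ) else 0) = h := by
    rw [Fin.sum_univ_eq_sum_range (fun a => if a < h then (1 : ℝ) else 0), ← Finset.sum_filter]
    have : (Finset.range K).filter (fun a => a < h) = Finset.range h := by
      ext a; simp; omega
    rw [this]; simp
  cases b
  · have : ∀ a : Fin K, (if decide (a.val < h) = false then (1 : ℝ) else 0) =
        1 - (if a.val < h then (1 : ℝ) else 0) := by
      intro a; by_cases ha : a.val < h <;> simp [ha]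
    simp_rw [this]
    rw [Finset.sum_sub_distrib, h1]; simp
  · simpa using h1

lemma soft {g : (ι → Bool) → ℝ} {D : ℕ} {e : ℝ} (hg : IsSketch g D e) (B q : ℕ) (hB1 : 1 ≤ B)
    (hB : ∀ x, |g x| ≤ B) (hq0 : 0 < q) (hq : ∀ x, ∃ a : ℤ, (q : ℝ) * g x = a)
    (J j N K : ℕ) (hJ : 1 ≤ J) (hN : 1 ≤ N) (hK : K = 2 * (q * (2 * J * B)) ^ (2 * j + 1)) :
    ∃ out : (Fin J × ι → Bool) → (Fin N → Fin K) → ℝ,
      (∀ x c, ∃ r : ℚ, out x c = r) ∧
      (∀ (φ : ℝ → ℝ) c, (fun x => φ (out x c)) ∈ Deg (Fin J × ι) (J * D)) ∧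
      (∀ φ : ℝ → ℝ, (fun x => ∑ c, φ (out x c)) ∈ Deg (Fin J × ι) (N * ((2 * j + 1) * D))) ∧
      E (fun x => E (fun c => (Ssum x - out x c) ^ 2)) ≤
        2 * J * e + 12 * j ^ 4 * B ^ 2 + 64 * J ^ 2 * B ^ 2 / ((2 * j + 1) ^ 2 * N) := by
  classical
  set R : ℝ := 2 * J * B with hR
  have hJ' : (1 : ℝ) ≤ J := by exact_mod_cast hJ
  have hB' : (1 : ℝ) ≤ B := by exact_mod_cast hB1
  have hN' : (1 : ℝ) ≤ N := by exact_mod_cast hN
  have hq' : (0 : ℝ) < q := by exact_mod_cast hq0
  have hR0 : 0 < R := by positivity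
  have hKpos : 0 < K := by rw [hK]; positivity
  have : Nonempty (Fin K) := ⟨⟨0, hKpos⟩⟩
  have hKR : (K : ℝ) = 2 * (q * R) ^ (2 * j + 1) := by rw [hK, hR]; push_cast; ring
  have hK0 : (0 : ℝ) < K := by exact_mod_cast hKpos
  set m : ℝ := 2 * j + 1 with hm
  have hm0 : 0 < m := by positivity
  let Y : (Fin J → ι → Bool) → ℝ := fun z => ∑ i, g (z i)
  let P : ℝ → ℝ := fun y => (cheb j (y / R)).2
  let h : ℝ → ℕ := fun y => ⌊(K : ℝ) * (1 + P y) / 2⌋₊
  let o : ℝ → (Fin N → Bool) → ℝ := fun _ v => R / (m * N) * ∑ k, sg (v k)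
  let out' : ℝ → (Fin N → Fin K) → ℝ := fun y c => o y (fun k => decide ((c k).val < h y))
  have hYle : ∀ z, |Y z / R| ≤ 1 / 2 := by
    intro z
    rw [abs_div, abs_of_pos hR0, div_le_iff₀ hR0]
    calc |Y z| ≤ ∑ i, |g (z i)| := Finset.abs_sum_le_sum_abs _ _
      _ ≤ ∑ _i : Fin J, (B : ℝ) := Finset.sum_le_sum fun i _ => hB _
      _ = 1 / 2 * R := by simp [hR]; ring
  have hPle : ∀ z, |P (Y z)| ≤ 1 := fun z => abs_cheb_le j (hYle z)
  have hh : ∀ z, (h (Y z) : ℝ) = (K : ℝ) * (1 + P (Y z)) / 2 := by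
    intro z
    choose a ha using hq
    have h1 : (q * R) * (Y z / R) = ((∑ i, a (z i) : ℤ) : ℝ) := by
      push_cast
      simp_rw [← ha]
      rw [← Finset.mul_sum]; field_simp; rfl
    obtain ⟨c, hc⟩ := (cheb_int j (q := (q : ℤ) * (2 * J * B)) (by rw [hR]; push_cast; ring) h1).2
    have h2 : (K : ℝ) * (1 + P (Y z)) / 2 = ((((q : ℤ) * (2 * J * B)) ^ (2 * j + 1) + c : ℤ) : ℝ) := by
      push_cast
      rw [← hc, hKR, hR]; simp only [P]; ring
    have h3 : (0 : ℝ) ≤ (K : ℝ) * (1 + P (Y z)) / 2 := by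
      have := abs_le.mp (hPle z)
      have : 0 ≤ 1 + P (Y z) := by linarith
      positivity
    obtain ⟨n, hn⟩ := Int.eq_ofNat_of_zero_le (a := ((q : ℤ) * (2 * J * B)) ^ (2 * j + 1) + c)
      (by rw [h2] at h3; exact_mod_cast h3)
    simp only [h]
    rw [h2, hn]; simp
  have hhK : ∀ z, h (Y z) ≤ K := by
    intro z
    have h1 := hh z
    have := abs_le.mp (hPle z)
    have : (h (Y z) : ℝ) ≤ K := by rw [h1]; nlinarith
    exact_mod_cast this
  have hcnt : ∀ z b, (∑ a : Fin K, if decide (a.val < h (Y z)) = b then (1 : ℝ) else 0) =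
      (K : ℝ) * (1 + sg b * P (Y z)) / 2 := by
    intro z b
    rw [count_lt K _ (hhK z), hh]
    cases b <;> simp <;> ring
  refine ⟨fun x c => out' (Y (fun i a => x (i, a))) c, fun x c => ?_, fun φ c => ?_, fun φ => ?_, ?_⟩
  · refine ⟨(2 * J * B) / ((2 * j + 1) * N) *
      ∑ k, (if decide ((c k).val < h (Y (fun i a => x (i, a)))) then 1 else -1), ?_⟩
    simp only [out', o, hR, hm, sg]
    push_cast
    congr 1
    refine Finset.sum_congr rfl fun k _ => ?_
    split_ifs <;> simp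
  · exact letters_mem hg.deg J (fun v => φ (out' (∑ i, v i) c))
  · have e1 : (fun x : Fin J × ι → Bool => ∑ c, φ (out' (Y (fun i a => x (i, a))) c)) =
        fun x => ∑ v : Fin N → Bool,
          (∏ k, (K : ℝ) * (1 + sg (v k) * P (Y (fun i a => x (i, a)))) / 2) * φ (o 0 v) := by
      ext x
      have := sum_pi_push (ι := Fin N) (α := Fin K) (β := Bool) (fun _ _ => (1 : ℝ))
        (fun _ a => decide (a.val < h (Y (fun i a => x (i, a))))) (fun v => φ (o 0 v))
      simp_rw [hcnt] at this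
      rw [← this]
      simp [out', o]
    rw [e1]
    refine sum_mem' _ fun v _ => mul_const_mem _ ?_
    have hY : (fun x : Fin J × ι → Bool => Y (fun i a => x (i, a)) / R) ∈ Deg (Fin J × ι) D :=
      div_const_mem _ (sum_mem' _ fun i _ => reindex_mem (hg.deg id) (fun a => (i, a)))
    have hP : (fun x : Fin J × ι → Bool => P (Y (fun i a => x (i, a)))) ∈
        Deg (Fin J × ι) ((2 * j + 1) * D) := (cheb_mem j hY).2
    have := prod_mem' (Finset.univ : Finset (Fin N))
      (f := fun k (x : Fin J × ι → Bool) => (K : ℝ) * (1 + sg (v k) * P (Y (fun i a => x (i, a)))) / 2)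
      (fun k _ => div_const_mem _ (const_mul_mem _ (add_mem' (const_mem 1 _) (const_mul_mem _ hP))))
    simpa using this
  · -- the error bound
    have e1 : E (fun x : Fin J × ι → Bool =>
        E (fun c => (Ssum x - out' (Y (fun i a => x (i, a))) c) ^ 2)) =
        E (fun z : Fin J → ι → Bool => E (fun c => (∑ i, Ssum (z i) - out' (Y z) c) ^ 2)) := by
      rw [← E_equiv (Equiv.curry (Fin J) ι Bool)]
      congr 1; ext x
      have : Ssum x = ∑ i, Ssum (Equiv.curry (Fin J) ι Bool x i) := by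
        unfold Ssum; rw [Fintype.sum_prod_type]; rfl
      rw [this]; rfl
    rw [e1]
    have hvar : ∀ z, E (fun c => (R * P (Y z) / m - out' (Y z) c) ^ 2) ≤ 4 * R ^ 2 / (m ^ 2 * N) := by
      intro z
      let u : Fin K → ℝ := fun a => sg (decide (a.val < h (Y z))) - P (Y z)
      have hu0 : E u = 0 := by
        have h1 : ∑ a : Fin K, sg (decide (a.val < h (Y z))) = K * P (Y z) := by
          have h2 : ∀ a : Fin K, sg (decide (a.val < h (Y z))) =
              (if decide (a.val < h (Y z)) = true then (1 : ℝ) else 0) -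
              (if decide (a.val < h (Y z)) = false then (1 : ℝ) else 0) := by
            intro a; cases decide (a.val < h (Y z)) <;> simp
          simp_rw [h2]
          rw [Finset.sum_sub_distrib, hcnt, hcnt]; simp; ring
        simp only [E, u, Finset.sum_sub_distrib, h1]
        simp
      have hu2 : ∀ a, |u a| ≤ 2 := by
        intro a
        calc |u a| ≤ |sg (decide (a.val < h (Y z)))| + |P (Y z)| := abs_sub _ _
          _ ≤ 1 + 1 := add_le_add (abs_sg _).le (hPle z)
          _ = 2 := by norm_num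
      have h2 := (moments u 2 hu0 hu2 N).2.1
      have h3 : E (fun a => u a ^ 2) ≤ 4 := E_le_const fun a => by
        have := abs_le.mp (hu2 a); nlinarith
      have e2 : (fun c : Fin N → Fin K => (R * P (Y z) / m - out' (Y z) c) ^ 2) =
          fun c => (R / (m * N)) ^ 2 * (∑ k, u (c k)) ^ 2 := by
        ext c
        simp only [out', o, u, Finset.sum_sub_distrib]
        simp only [Finset.sum_const, Finset.card_univ, Fintype.card_fin, nsmul_eq_mul]
        field_simp; ring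
      rw [e2, E_const_mul, h2]
      calc (R / (m * N)) ^ 2 * (N * E (fun a => u a ^ 2)) ≤ (R / (m * N)) ^ 2 * (N * 4) := by gcongr
        _ = _ := by field_simp
    have hbias : ∀ z, (Y z - R * P (Y z) / m) ^ 2 ≤ 4 * j ^ 4 / R ^ 2 * (Y z) ^ 4 := by
      intro z
      have h1 := (cheb_bounds j (hYle z)).2.2
      rw [← hm] at h1
      have h2 : (P (Y z) - m * (Y z / R)) ^ 2 ≤ (4 * j ^ 3 * (Y z / R) ^ 2) ^ 2 := by
        rw [← sq_abs]; exact pow_le_pow_left₀ (abs_nonneg _) h1 2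
      have h3 : (Y z - R * P (Y z) / m) ^ 2 = (R / m) ^ 2 * (P (Y z) - m * (Y z / R)) ^ 2 := by
        field_simp; ring
      have h4 : (4 : ℝ) * j ^ 2 ≤ m ^ 2 := by
        rw [hm]; have : (0 : ℝ) ≤ j := Nat.cast_nonneg j
        nlinarith
      rw [h3]
      calc (R / m) ^ 2 * (P (Y z) - m * (Y z / R)) ^ 2
          ≤ (R / m) ^ 2 * (4 * j ^ 3 * (Y z / R) ^ 2) ^ 2 := by gcongr
        _ = (4 * j ^ 2 / m ^ 2) * (4 * j ^ 4 / R ^ 2 * (Y z) ^ 4) := by field_simp
        _ ≤ 1 * (4 * j ^ 4 / R ^ 2 * (Y z) ^ 4) := by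
            gcongr
            rw [div_le_one (by positivity)]; exact h4
        _ = _ := one_mul _
    have hpt : ∀ z, E (fun c => (∑ i, Ssum (z i) - out' (Y z) c) ^ 2) ≤
        2 * (∑ i, (Ssum (z i) - g (z i))) ^ 2 + (16 * j ^ 4 / R ^ 2) * (∑ i, g (z i)) ^ 4 +
          16 * R ^ 2 / (m ^ 2 * N) := by
      intro z
      have h1 : E (fun c => (∑ i, Ssum (z i) - out' (Y z) c) ^ 2) ≤
          E (fun c => (2 * (∑ i, (Ssum (z i) - g (z i))) ^ 2 + 4 * (Y z - R * P (Y z) / m) ^ 2) +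
            4 * (R * P (Y z) / m - out' (Y z) c) ^ 2) := by
        refine E_mono fun c => ?_
        rw [Finset.sum_sub_distrib]
        change _ ≤ 2 * (∑ i, Ssum (z i) - Y z) ^ 2 + _ + _
        set a := ∑ i, Ssum (z i) - Y z with ha
        set b := Y z - R * P (Y z) / m with hb
        set d := R * P (Y z) / m - out' (Y z) c with hd
        have : ∑ i, Ssum (z i) - out' (Y z) c = a + b + d := by rw [ha, hb, hd]; ring
        rw [this]
        nlinarith [sq_nonneg (a - (b + d)), sq_nonneg (b - d)]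
      rw [E_add, E_const, E_const_mul] at h1
      have h2 := hvar z
      have h3 := hbias z
      have e3 : 16 * R ^ 2 / (m ^ 2 * N) = 4 * (4 * R ^ 2 / (m ^ 2 * N)) := by ring
      have e4 : (16 * j ^ 4 / R ^ 2) * (∑ i, g (z i)) ^ 4 = 4 * (4 * j ^ 4 / R ^ 2 * (Y z) ^ 4) := by
        simp only [Y]; ring
      rw [e3, e4]
      linarith
    refine (E_mono hpt).trans ?_
    rw [E_add, E_add, E_const, E_const_mul, E_const_mul]
    have hm2 := (moments (fun x : ι → Bool => Ssum x - g x) (Fintype.card ι + B)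
      (by rw [E_sub, E_Ssum, hg.mean, sub_zero])
      (fun x => (abs_sub _ _).trans (add_le_add (abs_Ssum_le x) (hB x))) J).2.1
    have hm4 := (moments g B hg.mean hB J).2.2
    rw [hm2]
    have h1 : (J : ℝ) * E (fun x : ι → Bool => (Ssum x - g x) ^ 2) ≤ J * e := by
      gcongr; exact hg.err
    have h2 : (16 * j ^ 4 / R ^ 2) * E (fun z : Fin J → ι → Bool => (∑ i, g (z i)) ^ 4) ≤
        12 * j ^ 4 * B ^ 2 := by
      calc _ ≤ (16 * j ^ 4 / R ^ 2) * (3 * J ^ 2 * B ^ 4) := by gcongr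
        _ = _ := by rw [hR]; field_simp; ring
    have h3 : 16 * R ^ 2 / (m ^ 2 * N) = 64 * J ^ 2 * B ^ 2 / (m ^ 2 * N) := by
      rw [hR]; ring
    rw [h3]
    linarith

end

end Crest.Agent.R63
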