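import Crest.Agent.R63.Basic

/-!
The spread lemma (minimal-fragment proof in the style of Park and Pham) and its consequence:
a spread family contains many pairwise disjoint members.
-/

set_option autoImplicit false
set_option linter.unusedSectionVars false

namespace Crest.Agent.R63

open Finset

/-- Bernoulli weight of a bit. -/
noncomputable def wt (p : ℝ) (b : Bool) : ℝ := if b then p else 1 - p

/-- Product Bernoulli weight. -/
noncomputable def mu {X : Type*} [Fintype X] (p : ℝ) (W : X → Bool) : ℝ := ∏ x, wt p (W x)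

section
variable {X : Type*} [Fintype X] [DecidableEq X]

lemma wt_nonneg {p : ℝ} (h0 : 0 ≤ p) (h1 : p ≤ 1) (b : Bool) : 0 ≤ wt p b := by
  cases b <;> simp [wt] <;> linarith

lemma mu_nonneg {p : ℝ} (h0 : 0 ≤ p) (h1 : p ≤ 1) (W : X → Bool) : 0 ≤ mu p W :=
  Finset.prod_nonneg fun _ _ => wt_nonneg h0 h1 _

lemma sum_mu (p : ℝ) : ∑ W : X → Bool, mu p W = 1 := by
  unfold mu
  rw [sum_pi_prod (fun _ b => wt p b)]
  simp [wt]

lemma mu_union (p q : ℝ) (F : (X → Bool) → ℝ) :
    ∑ W : X → Bool, mu p W * ∑ W' : X → Bool, mu q W' * F (fun x => W x || W' x) =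
      ∑ W : X → Bool, mu (p + q - p * q) W * F W := by
  have h := sum_pi_push (ι := X) (α := Bool × Bool) (β := Bool)
    (fun _ b => wt p b.1 * wt q b.2) (fun _ b => b.1 || b.2) F
  have h2 : ∀ b : Bool, (∑ a : Bool × Bool, if (a.1 || a.2) = b then wt p a.1 * wt q a.2 else 0)
      = wt (p + q - p * q) b := by
    intro b
    rw [Fintype.sum_prod_type]
    cases b <;> simp [wt] <;> ring
  simp_rw [h2] at h
  unfold mu
  rw [← h, ← (Equiv.arrowProdEquivProdArrow X (fun _ => Bool) (fun _ => Bool)).symm.sum_comp,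
    Fintype.sum_prod_type]
  refine Finset.sum_congr rfl fun W _ => ?_
  rw [Finset.mul_sum]
  refine Finset.sum_congr rfl fun W' _ => ?_
  simp [Equiv.arrowProdEquivProdArrow, Finset.prod_mul_distrib, mul_assoc]

lemma mu_color {Ω : Type*} [Fintype Ω] [DecidableEq Ω] (ω : Ω) (F : (X → Bool) → ℝ) :
    E (fun c : X → Ω => F (fun x => decide (c x = ω))) =
      ∑ W : X → Bool, mu (1 / Fintype.card Ω) W * F W := by
  have : Nonempty Ω := ⟨ω⟩
  have hK : (Fintype.card Ω : ℝ) ≠ 0 := by exact_mod_cast Fintype.card_ne_zero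
  have h := sum_pi_push (ι := X) (α := Ω) (β := Bool)
    (fun _ _ => (1 / Fintype.card Ω : ℝ)) (fun _ a => decide (a = ω)) F
  have h2 : ∀ b : Bool, (∑ a : Ω, if decide (a = ω) = b then (1 / Fintype.card Ω : ℝ) else 0)
      = wt (1 / Fintype.card Ω) b := by
    intro b
    cases b
    · have : ∀ a : Ω, (if decide (a = ω) = false then (1 / Fintype.card Ω : ℝ) else 0) =
          (1 / Fintype.card Ω : ℝ) - (if a = ω then (1 / Fintype.card Ω : ℝ) else 0) := by
        intro a; by_cases h : a = ω <;> simp [h]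
      simp_rw [this]
      rw [Finset.sum_sub_distrib]
      simp [wt, hK]
    · simp [wt]
  simp_rw [h2] at h
  unfold mu
  rw [← h]
  unfold E
  rw [Finset.sum_div]
  refine Finset.sum_congr rfl fun c _ => ?_
  simp
  ring

lemma mu_le_union {p : ℝ} (h0 : 0 ≤ p) (h1 : p ≤ 1) (W : X → Bool) (U : Finset X)
    (hU : ∀ x ∈ U, W x = false) :
    mu p W * p ^ U.card ≤ mu p (fun x => W x || decide (x ∈ U)) := by
  have : p ^ U.card = ∏ x, (if x ∈ U then p else 1) := by
    rw [Finset.prod_ite_mem]; simp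
  rw [this]
  unfold mu
  rw [← Finset.prod_mul_distrib]
  refine Finset.prod_le_prod (fun x _ => mul_nonneg (wt_nonneg h0 h1 _) (by split_ifs <;> linarith))
    fun x _ => ?_
  by_cases hx : x ∈ U
  · simp [hx, hU x hx, wt]; nlinarith
  · simp [hx]

/-- One round of the minimal-fragment argument. -/
lemma one_round {ι : Type*} (s : Finset ι) (fr : ι → Finset X) (k : ℕ) (p R Z : ℝ)
    (hp0 : 0 < p) (hp1 : p ≤ 1) (hpR : 4 ≤ p * R) (hZ : 0 ≤ Z)
    (hk : ∀ i ∈ s, (fr i).card ≤ 2 * k + 1)
    (hspread : ∀ U : Finset X, ((s.filter (fun i => U ⊆ fr i)).card : ℝ) * R ^ U.card ≤ Z) :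
    ∃ T : (X → Bool) → ι → Finset X,
      (∀ W, ∀ i ∈ s, T W i ⊆ fr i ∧ ∃ j ∈ s, ∀ x ∈ fr j, x ∈ T W i ∨ W x = true) ∧
      ∑ W : X → Bool, mu p W * ((s.filter (fun i => k < (T W i).card)).card : ℝ) ≤
        Z * (2 / (p * R)) := by
  classical
  have hR : 0 < R := by
    by_contra h
    push Not at h
    nlinarith
  -- minimal fragments
  have hmin : ∀ (W : X → Bool) (i : ι), ∃ U : Finset X, i ∈ s →
      (∃ j ∈ s, (∀ x ∈ fr j, x ∈ fr i ∨ W x = true) ∧ U = (fr j).filter (fun x => W x = false)) ∧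
      ∀ j ∈ s, (∀ x ∈ fr j, x ∈ fr i ∨ W x = true) →
        U.card ≤ ((fr j).filter (fun x => W x = false)).card := by
    intro W i
    by_cases hi : i ∈ s
    · obtain ⟨j, hj, hjmin⟩ := Finset.exists_min_image
        (s.filter (fun j => ∀ x ∈ fr j, x ∈ fr i ∨ W x = true))
        (fun j => ((fr j).filter (fun x => W x = false)).card)
        ⟨i, by simp [hi]; exact fun x hx => Or.inl hx⟩
      rw [Finset.mem_filter] at hj
      refine ⟨(fr j).filter (fun x => W x = false), fun _ => ⟨⟨j, hj.1, hj.2, rfl⟩, ?_⟩⟩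
      intro j' hj' h'
      exact hjmin j' (Finset.mem_filter.mpr ⟨hj', h'⟩)
    · exact ⟨∅, fun h => absurd h hi⟩
  choose T hT using hmin
  -- canonical member below a set
  have hcan : ∀ V : X → Bool, ∃ A : Finset X, A.card ≤ 2 * k + 1 ∧
      ((∃ j ∈ s, ∀ x ∈ fr j, V x = true) → ∃ j ∈ s, A = fr j ∧ ∀ x ∈ fr j, V x = true) := by
    intro V
    by_cases h : ∃ j ∈ s, ∀ x ∈ fr j, V x = true
    · obtain ⟨j, hj, hj'⟩ := h
      exact ⟨fr j, hk j hj, fun _ => ⟨j, hj, rfl, hj'⟩⟩
    · exact ⟨∅, by simp, fun h' => absurd h' h⟩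
  choose A hA using hcan
  have hTsub : ∀ W, ∀ i ∈ s, T W i ⊆ fr i := by
    intro W i hi x hx
    obtain ⟨⟨j, _, hj, hU⟩, _⟩ := hT W i hi
    rw [hU, Finset.mem_filter] at hx
    rcases hj x hx.1 with h | h
    · exact h
    · rw [hx.2] at h; exact absurd h (by simp)
  have hTW : ∀ W, ∀ i ∈ s, ∀ x ∈ T W i, W x = false := by
    intro W i hi x hx
    obtain ⟨⟨j, _, _, hU⟩, _⟩ := hT W i hi
    rw [hU, Finset.mem_filter] at hx
    exact hx.2
  have hTcov : ∀ W, ∀ i ∈ s, ∃ j ∈ s, ∀ x ∈ fr j, x ∈ T W i ∨ W x = true := by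
    intro W i hi
    obtain ⟨⟨j, hjs, _, hU⟩, _⟩ := hT W i hi
    refine ⟨j, hjs, fun x hx => ?_⟩
    cases hW : W x
    · left; rw [hU, Finset.mem_filter]; exact ⟨hx, hW⟩
    · right; rfl
  have hTA : ∀ W, ∀ i ∈ s, T W i ⊆ A (fun x => W x || decide (x ∈ T W i)) := by
    intro W i hi
    obtain ⟨j, hjs, hj⟩ := hTcov W i hi
    obtain ⟨j', hj's, hAj, hj'⟩ := (hA (fun x => W x || decide (x ∈ T W i))).2
      ⟨j, hjs, fun x hx => by rcases hj x hx with h | h <;> simp [h]⟩
    have hsub : (fr j').filter (fun x => W x = false) ⊆ T W i := by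
      intro x hx
      rw [Finset.mem_filter] at hx
      have := hj' x hx.1
      simpa [hx.2] using this
    have hle := (hT W i hi).2 j' hj's (fun x hx => by
      have := hj' x hx
      simp only [Bool.or_eq_true, decide_eq_true_eq] at this
      rcases this with h | h
      · exact Or.inr h
      · exact Or.inl (hTsub W i hi h))
    have heq := Finset.eq_of_subset_of_card_le hsub hle
    rw [hAj, ← heq]
    exact Finset.filter_subset _ _
  refine ⟨T, fun W i hi => ⟨hTsub W i hi, hTcov W i hi⟩, ?_⟩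
  -- counting
  set good : (X → Bool) → Finset X → Prop := fun W U =>
    k < U.card ∧ (∀ x ∈ U, W x = false) ∧ U ⊆ A (fun x => W x || decide (x ∈ U)) with hgood
  have hcount : ∀ W, ((s.filter (fun i => k < (T W i).card)).card : ℝ) ≤
      ∑ U : Finset X, if good W U then Z / R ^ U.card else 0 := by
    intro W
    have h1 : (s.filter (fun i => k < (T W i).card)).card =
        ∑ U : Finset X, ((s.filter (fun i => k < (T W i).card)).filter (fun i => T W i = U)).card :=
      Finset.card_eq_sum_card_fiberwise (fun _ _ => Finset.mem_univ _)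
    rw [h1]
    push_cast
    refine Finset.sum_le_sum fun U _ => ?_
    split_ifs with hg
    · rw [le_div_iff₀ (by positivity)]
      refine le_trans ?_ (hspread U)
      gcongr
      intro i hi
      simp only [Finset.mem_filter] at hi ⊢
      exact ⟨hi.1.1, hi.2 ▸ hTsub W i hi.1.1⟩
    · have : ((s.filter (fun i => k < (T W i).card)).filter (fun i => T W i = U)) = ∅ := by
        rw [Finset.filter_eq_empty_iff]
        intro i hi hU
        rw [Finset.mem_filter] at hi
        apply hg
        subst hU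
        exact ⟨hi.2, hTW W i hi.1, hTA W i hi.1⟩
      simp [this]
  have hpR0 : 0 < p * R := by linarith
  have hstep : ∀ U : Finset X,
      ∑ W : X → Bool, mu p W * (if good W U then Z / R ^ U.card else 0) ≤
      ∑ V : X → Bool, mu p V * (if k < U.card ∧ U ⊆ A V then Z / (p * R) ^ U.card else 0) := by
    intro U
    set G : (X → Bool) → ℝ := fun V =>
      mu p V * (if k < U.card ∧ U ⊆ A V then Z / (p * R) ^ U.card else 0) with hG
    have hG0 : ∀ V, 0 ≤ G V := fun V =>
      mul_nonneg (mu_nonneg hp0.le hp1 _) (by split_ifs <;> positivity)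
    set D : Finset (X → Bool) := Finset.univ.filter (fun W => ∀ x ∈ U, W x = false) with hD
    set φ : (X → Bool) → (X → Bool) := fun W x => W x || decide (x ∈ U) with hφ
    have hinj : Set.InjOn φ D := by
      intro W hW W' hW' h
      simp only [hD, Finset.coe_filter, Finset.mem_univ, true_and, Set.mem_ofPred_eq] at hW hW'
      funext x
      by_cases hx : x ∈ U
      · rw [hW x hx, hW' x hx]
      · have := congrFun h x
        simpa [hφ, hx] using this
    calc ∑ W : X → Bool, mu p W * (if good W U then Z / R ^ U.card else 0)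
        = ∑ W ∈ D, mu p W * (if good W U then Z / R ^ U.card else 0) := by
          symm
          refine Finset.sum_subset (Finset.subset_univ _) fun W _ hW => ?_
          have : ¬ good W U := fun hg => hW (by simp only [hD, Finset.mem_filter]; exact ⟨by simp, hg.2.1⟩)
          simp [this]
      _ ≤ ∑ W ∈ D, G (φ W) := by
          refine Finset.sum_le_sum fun W hW => ?_
          simp only [hD, Finset.mem_filter, Finset.mem_univ, true_and] at hW
          split_ifs with hg
          · have h1 : k < U.card ∧ U ⊆ A (φ W) := ⟨hg.1, hg.2.2⟩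
            simp only [hG, if_pos h1]
            have h2 := mu_le_union hp0.le hp1 W U hW
            calc mu p W * (Z / R ^ U.card) = (mu p W * p ^ U.card) * (Z / (p * R) ^ U.card) := by
                  rw [mul_pow]; field_simp
              _ ≤ _ := mul_le_mul_of_nonneg_right h2 (by positivity)
          · simpa using hG0 _
      _ = ∑ V ∈ D.image φ, G V := (Finset.sum_image hinj).symm
      _ ≤ ∑ V, G V := Finset.sum_le_sum_of_subset_of_nonneg (Finset.subset_univ _)
          fun V _ _ => hG0 V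
  have hfin : ∀ V : X → Bool,
      ∑ U : Finset X, (if k < U.card ∧ U ⊆ A V then Z / (p * R) ^ U.card else 0) ≤
        Z * (2 / (p * R)) := by
    intro V
    have hpR1 : 1 ≤ p * R := by linarith
    calc ∑ U : Finset X, (if k < U.card ∧ U ⊆ A V then Z / (p * R) ^ U.card else 0)
        ≤ ∑ U : Finset X, (if U ∈ (A V).powerset then Z / (p * R) ^ (k + 1) else 0) := by
          refine Finset.sum_le_sum fun U _ => ?_
          by_cases h : k < U.card ∧ U ⊆ A V
          · rw [if_pos h, if_pos (Finset.mem_powerset.mpr h.2)]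
            exact div_le_div_of_nonneg_left hZ (by positivity) (pow_le_pow_right₀ hpR1 h.1)
          · rw [if_neg h]; split_ifs <;> positivity
      _ = 2 ^ (A V).card * (Z / (p * R) ^ (k + 1)) := by
          rw [Finset.sum_ite_mem]; simp
      _ ≤ 2 ^ (2 * k + 1) * (Z / (p * R) ^ (k + 1)) := by
          gcongr
          · norm_num
          · exact (hA V).1
      _ = Z * (2 / (p * R)) * (4 / (p * R)) ^ k := by
          rw [div_pow, pow_succ, pow_succ, pow_mul]; field_simp; norm_num; ring
      _ ≤ Z * (2 / (p * R)) * 1 := by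
          gcongr
          exact pow_le_one₀ (by positivity) ((div_le_one hpR0).mpr hpR)
      _ = _ := mul_one _
  calc ∑ W : X → Bool, mu p W * ((s.filter (fun i => k < (T W i).card)).card : ℝ)
      ≤ ∑ W : X → Bool, mu p W * ∑ U : Finset X, if good W U then Z / R ^ U.card else 0 :=
        Finset.sum_le_sum fun W _ =>
          mul_le_mul_of_nonneg_left (hcount W) (mu_nonneg hp0.le hp1 _)
    _ = ∑ U : Finset X, ∑ W : X → Bool, mu p W * (if good W U then Z / R ^ U.card else 0) := by
        simp_rw [Finset.mul_sum]; exact Finset.sum_comm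
    _ ≤ ∑ U : Finset X, ∑ V : X → Bool,
          mu p V * (if k < U.card ∧ U ⊆ A V then Z / (p * R) ^ U.card else 0) :=
        Finset.sum_le_sum fun U _ => hstep U
    _ = ∑ V : X → Bool, mu p V *
          ∑ U : Finset X, (if k < U.card ∧ U ⊆ A V then Z / (p * R) ^ U.card else 0) := by
        simp_rw [Finset.mul_sum]; exact Finset.sum_comm
    _ ≤ ∑ V : X → Bool, mu p V * (Z * (2 / (p * R))) :=
        Finset.sum_le_sum fun V _ => mul_le_mul_of_nonneg_left (hfin V) (mu_nonneg hp0.le hp1 _)
    _ = _ := by rw [← Finset.sum_mul, sum_mu, one_mul]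

open Classical in
/-- The spread lemma, by induction on the number of rounds. -/
lemma spread_rounds {ι : Type*} (p R Z : ℝ) (hp0 : 0 < p) (hp1 : p < 1) (hpR : 4 ≤ p * R)
    (hZ : 0 ≤ Z) (L : ℕ) :
    ∀ (q : ℝ), L * p ≤ q → q ≤ 1 → ∀ (s : Finset ι) (fr : ι → Finset X),
      (∀ i ∈ s, (fr i).card < 2 ^ L) →
      (∀ U : Finset X, ((s.filter (fun i => U ⊆ fr i)).card : ℝ) * R ^ U.card ≤ Z) →
      (∑ W : X → Bool, mu q W * (if ∃ i ∈ s, ∀ x ∈ fr i, W x = true then 0 else 1)) * s.card ≤
        Z * (L * (2 / (p * R))) := by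
  have hR : 0 < R := by
    by_contra h
    push Not at h
    nlinarith
  induction L with
  | zero =>
    intro q _ _ s fr hk _
    rcases s.eq_empty_or_nonempty with rfl | ⟨i, hi⟩
    · simp
    · have : ∀ W : X → Bool, ∃ i ∈ s, ∀ x ∈ fr i, W x = true := by
        intro W
        refine ⟨i, hi, fun x hx => ?_⟩
        have := hk i hi
        simp only [pow_zero, Nat.lt_one_iff, Finset.card_eq_zero] at this
        rw [this] at hx; simp at hx
      simp [this]
  | succ L ih =>
    intro q hq hq1 s fr hk hspread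
    push_cast at hq
    have hLp : 0 ≤ (L : ℝ) * p := by positivity
    set q' := (q - p) / (1 - p) with hq'
    have h1p : 0 < 1 - p := by linarith
    have hq'L : L * p ≤ q' := by
      rw [hq', le_div_iff₀ h1p]; nlinarith
    have hq'1 : q' ≤ 1 := by rw [hq', div_le_one h1p]; linarith
    have hq'0 : 0 ≤ q' := le_trans hLp hq'L
    have hqq : q = p + q' - p * q' := by rw [hq']; field_simp; ring
    obtain ⟨T, hT, hTsum⟩ := one_round s fr (2 ^ L - 1) p R Z hp0 hp1.le hpR hZ
      (fun i hi => by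
        have := hk i hi
        have h2 : 1 ≤ 2 ^ L := Nat.one_le_two_pow
        rw [pow_succ] at this; omega) hspread
    rw [hqq, ← mu_union, Finset.sum_mul]
    have hW : ∀ W : X → Bool,
        (∑ W' : X → Bool, mu q' W' *
          (if ∃ i ∈ s, ∀ x ∈ fr i, (W x || W' x) = true then (0 : ℝ) else 1)) * s.card ≤
        Z * (L * (2 / (p * R))) + ((s.filter (fun i => 2 ^ L - 1 < (T W i).card)).card : ℝ) := by
      intro W
      set s' := s.filter (fun i => ¬ (2 ^ L - 1 < (T W i).card)) with hs'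
      have hih := ih q' hq'L hq'1 s' (T W) (fun i hi => by
          rw [hs', Finset.mem_filter] at hi
          have h2 : 1 ≤ 2 ^ L := Nat.one_le_two_pow
          omega) (fun U => by
          refine le_trans ?_ (hspread U)
          gcongr
          intro i hi
          simp only [hs', Finset.mem_filter] at hi ⊢
          exact ⟨hi.1.1, hi.2.trans (hT W i hi.1.1).1⟩)
      have hcard : (s.card : ℝ) = s'.card +
          ((s.filter (fun i => 2 ^ L - 1 < (T W i).card)).card : ℝ) := by
        rw [hs', add_comm]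
        exact_mod_cast (Finset.card_filter_add_card_filter_not _).symm
      have hle : (∑ W' : X → Bool, mu q' W' *
          (if ∃ i ∈ s, ∀ x ∈ fr i, (W x || W' x) = true then (0 : ℝ) else 1)) ≤
          ∑ W' : X → Bool, mu q' W' *
            (if ∃ i ∈ s', ∀ x ∈ T W i, W' x = true then (0 : ℝ) else 1) := by
        refine Finset.sum_le_sum fun W' _ =>
          mul_le_mul_of_nonneg_left ?_ (mu_nonneg hq'0 hq'1 _)
        by_cases h : ∃ i ∈ s', ∀ x ∈ T W i, W' x = true
        · obtain ⟨i, hi, hi'⟩ := h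
          rw [hs', Finset.mem_filter] at hi
          obtain ⟨j, hj, hj'⟩ := (hT W i hi.1).2
          rw [if_pos ⟨j, hj, fun x hx => by
            rcases hj' x hx with h | h
            · rw [hi' x h, Bool.or_true]
            · rw [h, Bool.true_or]⟩]
          split_ifs
          · exact le_rfl
          · exact zero_le_one
        · rw [if_neg h]
          split_ifs
          · exact zero_le_one
          · exact le_rfl
      have hle1 : (∑ W' : X → Bool, mu q' W' *
          (if ∃ i ∈ s, ∀ x ∈ fr i, (W x || W' x) = true then (0 : ℝ) else 1)) ≤ 1 := by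
        calc _ ≤ ∑ W' : X → Bool, mu q' W' * 1 := Finset.sum_le_sum fun W' _ =>
              mul_le_mul_of_nonneg_left (by
                split_ifs
                · exact zero_le_one
                · exact le_rfl) (mu_nonneg hq'0 hq'1 _)
          _ = 1 := by rw [← Finset.sum_mul, sum_mu, one_mul]
      rw [hcard, mul_add]
      refine add_le_add (le_trans (mul_le_mul_of_nonneg_right hle (Nat.cast_nonneg _)) hih) ?_
      exact mul_le_of_le_one_left (Nat.cast_nonneg _) hle1
    calc ∑ W : X → Bool, (mu p W * ∑ W' : X → Bool, mu q' W' *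
          (if ∃ i ∈ s, ∀ x ∈ fr i, (W x || W' x) = true then (0 : ℝ) else 1)) * s.card
        ≤ ∑ W : X → Bool, mu p W * (Z * (L * (2 / (p * R))) +
            ((s.filter (fun i => 2 ^ L - 1 < (T W i).card)).card : ℝ)) := by
          refine Finset.sum_le_sum fun W _ => ?_
          rw [mul_assoc]
          exact mul_le_mul_of_nonneg_left (hW W) (mu_nonneg hp0.le hp1.le _)
      _ = Z * (L * (2 / (p * R))) + ∑ W : X → Bool, mu p W *
            ((s.filter (fun i => 2 ^ L - 1 < (T W i).card)).card : ℝ) := by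
          simp_rw [mul_add]
          rw [Finset.sum_add_distrib, ← Finset.sum_mul, sum_mu, one_mul]
      _ ≤ Z * (L * (2 / (p * R))) + Z * (2 / (p * R)) := add_le_add le_rfl hTsum
      _ = _ := by rw [Nat.cast_succ]; ring

/-- A spread family has many pairwise disjoint members. -/
lemma spread_disjoint {Ω : Type*} [Fintype Ω] [DecidableEq Ω] [Nonempty Ω] (L : ℕ) (hL : 2 ≤ L)
    (G : Finset (Finset X)) (hG : G.Nonempty) (hk : ∀ A ∈ G, A.card < 2 ^ L)
    (hspread : ∀ U : Finset X, ((G.filter (fun A => U ⊆ A)).card : ℝ) *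
      (4 * (Fintype.card Ω : ℝ) ^ 2 * (L : ℝ) ^ 2) ^ U.card ≤ G.card) :
    ∃ A : Ω → Finset X, (∀ ω, A ω ∈ G) ∧ ∀ ω ω', ω ≠ ω' → Disjoint (A ω) (A ω') := by
  classical
  set K : ℝ := (Fintype.card Ω : ℝ) with hK
  have hK1 : 1 ≤ K := by rw [hK]; exact_mod_cast Fintype.card_pos
  have hL2 : (2 : ℝ) ≤ L := by exact_mod_cast hL
  have hGc : (0 : ℝ) < G.card := by exact_mod_cast hG.card_pos
  have h := spread_rounds (X := X) (ι := Finset X) (1 / (K * L)) (4 * K ^ 2 * (L : ℝ) ^ 2) G.card
    (by positivity) (by rw [div_lt_one (by positivity)]; nlinarith)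
    (by
      have : 1 / (K * L) * (4 * K ^ 2 * (L : ℝ) ^ 2) = 4 * (K * L) := by field_simp
      rw [this]; nlinarith) hGc.le L (1 / K) (by apply le_of_eq; field_simp)
      (by rw [div_le_one (by positivity)]; exact hK1) G id hk hspread
  have h2 : (∑ W : X → Bool, mu (1 / K) W *
      (if ∃ A ∈ G, ∀ x ∈ A, W x = true then (0 : ℝ) else 1)) ≤ 1 / (2 * K) := by
    have e : (G.card : ℝ) * (L * (2 / (1 / (K * L) * (4 * K ^ 2 * (L : ℝ) ^ 2)))) =
        1 / (2 * K) * G.card := by field_simp; ring
    rw [e] at h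
    have := le_of_mul_le_mul_right h hGc
    refine le_of_eq_of_le (Finset.sum_congr rfl fun W _ => ?_) this
    by_cases hW : ∃ A ∈ G, ∀ x ∈ A, W x = true
    · rw [if_pos hW, if_pos (by simpa using hW)]
    · rw [if_neg hW, if_neg (by simpa using hW)]
  have h3 : ∀ ω : Ω, E (fun c : X → Ω =>
      if ∃ A ∈ G, ∀ x ∈ A, c x = ω then (0 : ℝ) else 1) ≤ 1 / (2 * K) := by
    intro ω
    have := mu_color (X := X) ω (fun W => if ∃ A ∈ G, ∀ x ∈ A, W x = true then (0 : ℝ) else 1)
    rw [← hK] at this
    rw [← this] at h2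
    simpa using h2
  have h4 : E (fun c : X → Ω => ∑ ω : Ω,
      if ∃ A ∈ G, ∀ x ∈ A, c x = ω then (0 : ℝ) else 1) ≤ 1 / 2 := by
    rw [E_sum]
    calc _ ≤ ∑ _ω : Ω, 1 / (2 * K) := Finset.sum_le_sum fun ω _ => h3 ω
      _ = 1 / 2 := by simp [← hK]; field_simp
  have h5 : ∃ c : X → Ω, ∀ ω : Ω, ∃ A ∈ G, ∀ x ∈ A, c x = ω := by
    by_contra hc
    push Not at hc
    have : E (fun _ : X → Ω => (1 : ℝ)) ≤ E (fun c : X → Ω => ∑ ω : Ω,
      if ∃ A ∈ G, ∀ x ∈ A, c x = ω then (0 : ℝ) else 1) := by
      refine E_mono fun c => ?_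
      obtain ⟨ω, hω⟩ := hc c
      have hn : ¬ ∃ A ∈ G, ∀ x ∈ A, c x = ω := by
        rintro ⟨A, hA, hA'⟩
        obtain ⟨x, hx, hx'⟩ := hω A hA
        exact hx' (hA' x hx)
      calc (1 : ℝ) = if ∃ A ∈ G, ∀ x ∈ A, c x = ω then (0 : ℝ) else 1 := by rw [if_neg hn]
        _ ≤ _ := Finset.single_le_sum (f := fun ω => if ∃ A ∈ G, ∀ x ∈ A, c x = ω then (0 : ℝ) else 1)
            (fun ω _ => by split_ifs <;> norm_num) (Finset.mem_univ ω)
    rw [E_const] at this
    linarith
  obtain ⟨c, hc⟩ := h5
  choose A hA hAc using hc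
  refine ⟨A, hA, fun ω ω' hne => ?_⟩
  rw [Finset.disjoint_left]
  intro x hx hx'
  exact hne ((hAc ω x hx).symm.trans (hAc ω' x hx'))

end

end Crest.Agent.R63
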