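import Crest.Agent.R63.Soft
import Crest.Agent.R63.Slice

/-!
The recursion step on sketches: `θ ↦ 9θ/(9θ+4)`.
-/

set_option autoImplicit false
set_option linter.unusedSectionVars false

namespace Crest.Agent.R63

open Finset Filter

lemma E_Ssum_sq {ι : Type*} [Fintype ι] [DecidableEq ι] :
    E (fun x : ι → Bool => Ssum x ^ 2) = Fintype.card ι := by
  have e : (fun x : ι → Bool => Ssum x ^ 2) = fun x => ∑ i, ∑ j, sg (x i) * sg (x j) := by
    ext x; unfold Ssum; rw [sq, Finset.sum_mul_sum]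
  rw [e, E_sum]
  have : ∀ i : ι, E (fun x : ι → Bool => ∑ j, sg (x i) * sg (x j)) = 1 := by
    intro i
    rw [E_sum, Finset.sum_eq_single i]
    · simp_rw [sg_mul_self]; exact E_const 1
    · intro j _ hj
      have h := sum_chi (S := {i, j}) (by simp)
      simp only [chi, Finset.prod_pair hj.symm] at h
      simp [E, h]
    · simp
  simp [this]

lemma combine {κ Ω : Type*} [Fintype κ] [DecidableEq κ] [Fintype Ω] [DecidableEq Ω] [Nonempty Ω]
    (s s' : ℕ) (col : (Fin s → Bool) → Option Ω)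
    (h1 : ∀ w ω ω', (fun a => (if lev a = w ∧ col a = some ω then (1 : ℝ) else 0) -
        (if lev a = w ∧ col a = some ω' then (1 : ℝ) else 0)) ∈ Deg (Fin s) s')
    (h2 : ∀ ω ω', (Finset.univ.filter (fun a => col a = some ω)).card =
        (Finset.univ.filter (fun a => col a = some ω')).card)
    (out : (κ → Bool) → Ω → ℝ) (d1 d2 : ℕ) (hrat : ∀ x c, ∃ r : ℚ, out x c = r)
    (hd1 : ∀ (φ : ℝ → ℝ) c, (fun x => φ (out x c)) ∈ Deg κ d1)
    (hd2 : ∀ φ : ℝ → ℝ, (fun x => ∑ c, φ (out x c)) ∈ Deg κ d2) (V : ℝ)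
    (herr : E (fun x => E (fun c => (Ssum x - out x c) ^ 2)) ≤ V) (D' : ℕ)
    (hD1 : s + d2 ≤ D') (hD2 : s' + d1 ≤ D') (δ : ℝ)
    (hδ : ((Finset.univ.filter (fun a => col a = none)).card : ℝ) ≤ δ * 2 ^ s) :
    ∃ g' : (Fin s ⊕ κ → Bool) → ℝ, IsSketch g' D' (V + δ * (Fintype.card κ : ℝ)) := by
  classical
  let raw : (Fin s ⊕ κ → Bool) → ℝ := fun x =>
    Ssum (fun i => x (Sum.inl i)) + (col (fun i => x (Sum.inl i))).elim 0 (out (fun i => x (Sum.inr i)))
  have hraw : ∀ x, ∃ r : ℚ, raw x = r := by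
    intro x
    simp only [raw]
    rw [Ssum_eq_lev]
    cases col (fun i => x (Sum.inl i)) with
    | none => exact ⟨2 * ((lev (fun i => x (Sum.inl i)) : ℕ) : ℚ) - s, by simp⟩
    | some c =>
      obtain ⟨r, hr⟩ := hrat (fun i => x (Sum.inr i)) c
      exact ⟨2 * ((lev (fun i => x (Sum.inl i)) : ℕ) : ℚ) - s + r, by simp [hr]⟩
  refine ⟨fun x => raw x - E raw, fun x => ?_, fun φ => ?_, ?_, ?_⟩
  · choose r hr using hraw
    refine ⟨r x - (∑ y, r y) / Fintype.card (Fin s ⊕ κ → Bool), ?_⟩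
    simp only [E, hr]
    push_cast; rfl
  · let c₀ : Ω := Classical.arbitrary Ω
    let ind : Fin (s + 1) → Option Ω → (Fin s → Bool) → ℝ := fun w o a =>
      if lev a = w ∧ col a = o then 1 else 0
    let F : Fin (s + 1) → ℝ → ℝ := fun w r => φ (2 * ((w : ℕ) : ℝ) - s + r - E raw)
    have e : (fun x => φ (raw x - E raw)) = fun x : Fin s ⊕ κ → Bool => ∑ w,
        (ind w none (fun i => x (Sum.inl i)) * F w 0 +
          (∑ c, (ind w (some c) (fun i => x (Sum.inl i)) - ind w (some c₀) (fun i => x (Sum.inl i))) *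
            F w (out (fun i => x (Sum.inr i)) c)) +
          ind w (some c₀) (fun i => x (Sum.inl i)) * ∑ c, F w (out (fun i => x (Sum.inr i)) c)) := by
      ext x
      set a : Fin s → Bool := fun i => x (Sum.inl i) with ha
      set z : κ → Bool := fun i => x (Sum.inr i) with hz
      have e1 : ∀ w, (ind w none a * F w 0 +
          (∑ c, (ind w (some c) a - ind w (some c₀) a) * F w (out z c)) +
          ind w (some c₀) a * ∑ c, F w (out z c)) =
          ind w none a * F w 0 + ∑ c, ind w (some c) a * F w (out z c) := by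
        intro w
        simp_rw [sub_mul]
        rw [Finset.sum_sub_distrib, Finset.mul_sum]; ring
      simp_rw [e1]
      rw [Finset.sum_eq_single (lev a)]
      · simp only [raw, ← ha, ← hz, ind, F, true_and]
        rw [Ssum_eq_lev]
        cases col a with
        | none => simp
        | some c => simp
      · intro w _ hw
        simp [ind, Ne.symm hw]
      · simp
    rw [e]
    refine sum_mem' _ fun w _ => add_mem' (add_mem' ?_ (sum_mem' _ fun c _ => ?_)) ?_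
    · refine mul_const_mem _ (mem_mono (reindex_mem (mem_card (ind w none)) Sum.inl) ?_)
      simp; omega
    · exact mem_mono (mul_mem (reindex_mem (h1 w c c₀) Sum.inl)
        (reindex_mem (hd1 (F w) c) Sum.inr)) hD2
    · refine mem_mono (mul_mem (reindex_mem (mem_card (ind w (some c₀))) Sum.inl)
        (reindex_mem (hd2 (F w)) Sum.inr)) ?_
      simpa using hD1
  · rw [E_sub, E_const, sub_self]
  · have hvar : E (fun x => (Ssum x - (raw x - E raw)) ^ 2) ≤ E (fun x => (Ssum x - raw x) ^ 2) := by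
      have e : (fun x => (Ssum x - (raw x - E raw)) ^ 2) =
          fun x => ((Ssum x - raw x) ^ 2 + (2 * E raw) * (Ssum x - raw x)) + (E raw) ^ 2 := by
        ext x; ring
      rw [e, E_add, E_add, E_const_mul, E_const, E_sub, E_Ssum]
      nlinarith [sq_nonneg (E raw)]
    refine hvar.trans ?_
    let Vc : Ω → ℝ := fun c => E (fun z : κ → Bool => (Ssum z - out z c) ^ 2)
    have hVc0 : ∀ c, 0 ≤ Vc c := fun c => E_nonneg fun _ => sq_nonneg _
    have e1 : E (fun x => (Ssum x - raw x) ^ 2) =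
        E (fun a : Fin s → Bool => E (fun z : κ → Bool => (Ssum z - (col a).elim 0 (out z)) ^ 2)) := by
      rw [← E_equiv (Equiv.sumArrowEquivProdArrow (Fin s) κ Bool).symm, E_prod]
      congr 1; ext a; congr 1; ext z
      simp only [raw, Ssum, Fintype.sum_sum_type]
      simp [Equiv.sumArrowEquivProdArrow]
    have e2 : ∀ a : Fin s → Bool, E (fun z : κ → Bool => (Ssum z - (col a).elim 0 (out z)) ^ 2) ≤
        (if col a = none then (Fintype.card κ : ℝ) else 0) +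
          ∑ c, (if col a = some c then Vc c else 0) := by
      intro a
      cases col a with
      | none =>
        simp only [Option.elim, sub_zero, if_true]
        simp only [reduceCtorEq, if_false, Finset.sum_const_zero, add_zero]
        exact E_Ssum_sq.le
      | some c => simp [Vc]
    rw [e1]
    refine (E_mono e2).trans ?_
    rw [E_add, add_comm]
    have h2s : (0 : ℝ) < 2 ^ s := by positivity
    have hcard : (Fintype.card (Fin s → Bool) : ℝ) = 2 ^ s := by simp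
    refine add_le_add ?_ ?_
    · rw [E_comm] at herr
      let c₀ : Ω := Classical.arbitrary Ω
      set n₀ := (Finset.univ.filter (fun a => col a = some c₀)).card with hn₀
      have hK0 : (0 : ℝ) < Fintype.card Ω := by exact_mod_cast Fintype.card_pos
      have hn : (Fintype.card Ω : ℝ) * n₀ ≤ 2 ^ s := by
        have h3 : ∑ c : Ω, (Finset.univ.filter (fun a => col a = some c)).card ≤
            Fintype.card (Fin s → Bool) := by
          rw [← Finset.card_biUnion]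
          · exact Finset.card_le_univ _
          · intro c _ c' _ hcc'
            simp only [Function.onFun]
            rw [Finset.disjoint_left]
            intro a ha ha'
            rw [Finset.mem_filter] at ha ha'
            exact hcc' (Option.some_injective _ (ha.2.symm.trans ha'.2))
        rw [Finset.sum_congr rfl (fun c _ => h2 c c₀)] at h3
        simp only [Finset.sum_const, Finset.card_univ, smul_eq_mul] at h3
        rw [← hcard]; exact_mod_cast h3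
      have e3 : E (fun a : Fin s → Bool => ∑ c, (if col a = some c then Vc c else 0)) =
          (n₀ * ∑ c, Vc c) / 2 ^ s := by
        unfold E
        rw [hcard, Finset.sum_comm, Finset.mul_sum]
        congr 1
        refine Finset.sum_congr rfl fun c _ => ?_
        rw [← Finset.sum_filter, Finset.sum_const, nsmul_eq_mul, h2 c c₀]
      rw [e3]
      have e4 : (∑ c, Vc c) / Fintype.card Ω ≤ V := herr
      have hs0 : 0 ≤ ∑ c, Vc c := Finset.sum_nonneg fun c _ => hVc0 c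
      refine le_trans ?_ e4
      rw [div_le_div_iff₀ h2s hK0]
      nlinarith
    · unfold E
      rw [hcard, ← Finset.sum_filter, Finset.sum_const, nsmul_eq_mul, div_le_iff₀ h2s]
      nlinarith [(Nat.cast_nonneg (Fintype.card κ) : (0 : ℝ) ≤ _)]

/-- Achievable degree ratios. -/
def Ach (θ : ℝ) : Prop :=
  ∀ ε : ℝ, 0 < ε → ∀ N : ℕ, ∃ n D : ℕ, ∃ g : (Fin n → Bool) → ℝ,
    N ≤ n ∧ Even n ∧ 1 ≤ D ∧ (D : ℝ) ≤ θ * n ∧ IsSketch g D (ε * n)

lemma ach_one : Ach 1 := by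
  intro ε hε N
  refine ⟨2 * (N + 1), 2 * (N + 1), fun x => Ssum x, by omega, even_two_mul _, by omega, by simp,
    fun x => ⟨2 * ((lev x : ℕ) : ℚ) - (2 * (N + 1) : ℕ), ?_⟩, fun φ => ?_, E_Ssum, ?_⟩
  · rw [Ssum_eq_lev]; simp
  · simpa using mem_card (ι := Fin (2 * (N + 1))) (fun x => φ (Ssum x))
  · simp only [sub_self]
    rw [E_const]
    have : 0 ≤ ε * ((2 * (N + 1) : ℕ) : ℝ) := by positivity
    simpa using this

lemma leftover_small (C : ℕ) (δ : ℝ) (hδ : 0 < δ) : ∀ᶠ t : ℕ in atTop, ∀ k K : ℕ, t ^ 13 ≤ k →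
    K ≤ (2 * (C * t ^ 13) ^ (2 * t ^ 3 + 1)) ^ (t ^ 8) →
    ((9 * k + 1) * (12 * (K : ℝ) ^ 2 * (18 * k + 2) ^ 3 * (2 * 485 ^ k)) ≤ δ * 2 ^ (9 * k)) := by
  have hA : ∀ᶠ k : ℕ in atTop, (k : ℝ) ^ 4 * (0.98 : ℝ) ^ k ≤ δ / 1920000 :=
    (tendsto_pow_const_mul_const_pow_of_abs_lt_one 4 (r := 0.98)
      (by rw [abs_of_pos] <;> norm_num)).eventually (ge_mem_nhds (by positivity))
  obtain ⟨k₀, hk₀⟩ := eventually_atTop.mp hA
  have hB : ∀ᶠ t : ℕ in atTop, (t : ℝ) ^ 13 * (1 / 2 : ℝ) ^ t ≤ 1 / (2 * C + 1) :=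
    (tendsto_pow_const_mul_const_pow_of_abs_lt_one 13 (r := 1 / 2)
      (by rw [abs_of_pos] <;> norm_num)).eventually (ge_mem_nhds (by positivity))
  have hC : ∀ᶠ t : ℕ in atTop, (0.97 : ℝ) ^ t ≤ 1 / 64 :=
    (tendsto_pow_atTop_nhds_zero_of_lt_one (r := 0.97) (by norm_num) (by norm_num)).eventually
      (ge_mem_nhds (by norm_num))
  filter_upwards [hB, hC, eventually_ge_atTop k₀, eventually_ge_atTop 1] with t hB hC ht0 ht1
  intro k K hk hK
  have htk : t ≤ k := le_trans (Nat.le_self_pow (by norm_num) t) hk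
  have hk1 : (1 : ℝ) ≤ k := by exact_mod_cast le_trans ht1 htk
  have h1 : 2 * (C * t ^ 13) ≤ 2 ^ t := by
    have h2 : (0 : ℝ) < 2 ^ t := by positivity
    have : (t : ℝ) ^ 13 * (2 * C + 1) ≤ 2 ^ t := by
      rw [one_div_pow, mul_one_div, div_le_div_iff₀ h2 (by positivity)] at hB
      linarith
    have h3 : (2 * (C * (t : ℝ) ^ 13)) ≤ 2 ^ t := by
      have : (0 : ℝ) ≤ (t : ℝ) ^ 13 := by positivity
      nlinarith
    exact_mod_cast h3
  have h2 : K ^ 2 ≤ 64 ^ (t ^ 12) := by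
    have ht3 : 1 ≤ t ^ 3 := Nat.one_le_pow _ _ ht1
    have h3 : 2 * (C * t ^ 13) ^ (2 * t ^ 3 + 1) ≤ (2 ^ t) ^ (3 * t ^ 3) := by
      calc 2 * (C * t ^ 13) ^ (2 * t ^ 3 + 1)
          ≤ 2 ^ (2 * t ^ 3 + 1) * (C * t ^ 13) ^ (2 * t ^ 3 + 1) :=
            Nat.mul_le_mul_right _ (Nat.le_self_pow (by omega) 2)
        _ = (2 * (C * t ^ 13)) ^ (2 * t ^ 3 + 1) := (mul_pow _ _ _).symm
        _ ≤ (2 ^ t) ^ (2 * t ^ 3 + 1) := Nat.pow_le_pow_left h1 _
        _ ≤ (2 ^ t) ^ (3 * t ^ 3) := Nat.pow_le_pow_right (by positivity) (by omega)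
    calc K ^ 2 ≤ (((2 ^ t) ^ (3 * t ^ 3)) ^ (t ^ 8)) ^ 2 :=
          Nat.pow_le_pow_left (hK.trans (Nat.pow_le_pow_left h3 _)) _
      _ = 64 ^ (t ^ 12) := by
          rw [← pow_mul, ← pow_mul, ← pow_mul, show (64 : ℕ) = 2 ^ 6 from rfl, ← pow_mul]
          congr 1; ring
  have h3 : (K : ℝ) ^ 2 * (0.97 : ℝ) ^ k ≤ 1 := by
    have h4 : (K : ℝ) ^ 2 ≤ 64 ^ (t ^ 12) := by exact_mod_cast h2
    have h5 : (0.97 : ℝ) ^ k ≤ (1 / 64) ^ (t ^ 12) := by
      calc (0.97 : ℝ) ^ k ≤ 0.97 ^ (t ^ 13) := pow_le_pow_of_le_one (by norm_num) (by norm_num) hk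
        _ = (0.97 ^ t) ^ (t ^ 12) := by rw [← pow_mul]; congr 1; ring
        _ ≤ _ := pow_le_pow_left₀ (by positivity) hC _
    calc (K : ℝ) ^ 2 * (0.97 : ℝ) ^ k ≤ 64 ^ (t ^ 12) * (1 / 64) ^ (t ^ 12) := by gcongr
      _ = 1 := by rw [← mul_pow]; simp
  have h4 : (485 : ℝ) ^ k ≤ 0.98 ^ k * 0.97 ^ k * 2 ^ (9 * k) := by
    rw [pow_mul, ← mul_pow, ← mul_pow]
    exact pow_le_pow_left₀ (by norm_num) (by norm_num) _
  have h5 := hk₀ k (le_trans ht0 htk)
  calc (9 * k + 1) * (12 * (K : ℝ) ^ 2 * (18 * k + 2) ^ 3 * (2 * 485 ^ k))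
      ≤ (10 * k) * (12 * (K : ℝ) ^ 2 * (20 * k) ^ 3 *
        (2 * (0.98 ^ k * 0.97 ^ k * 2 ^ (9 * k)))) := by
        gcongr <;> linarith
    _ = 1920000 * ((k : ℝ) ^ 4 * 0.98 ^ k) * ((K : ℝ) ^ 2 * 0.97 ^ k) * 2 ^ (9 * k) := by ring
    _ ≤ 1920000 * (δ / 1920000) * 1 * 2 ^ (9 * k) := by gcongr
    _ = _ := by ring

lemma ach_step {θ θ' : ℝ} (hθ : 0 < θ) (hθ' : 9 * θ / (9 * θ + 4) < θ') (h : Ach θ) : Ach θ' := by
  intro ε hε N₀
  obtain ⟨b, D, g, hb1, -, hD1, hDθ, hg⟩ := h (ε / 4) (by positivity) 1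
  obtain ⟨q, hq0, hq⟩ := exists_den g hg.rat
  obtain ⟨B, hB1, hB⟩ := exists_bound g
  set η := θ' - 9 * θ / (9 * θ + 4) with hη
  have hη0 : 0 < η := by rw [hη]; linarith
  have hb' : (1 : ℝ) ≤ b := by exact_mod_cast hb1
  have hD' : (1 : ℝ) ≤ D := by exact_mod_cast hD1
  have hB' : (1 : ℝ) ≤ B := by exact_mod_cast hB1
  have hA := leftover_small (q * (16 * B)) (ε / 4) (by positivity)
  obtain ⟨t₂, ht₂⟩ := exists_nat_ge (1024 * B ^ 2 / ε)
  obtain ⟨t₃, ht₃⟩ := exists_nat_ge (1 / η)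
  obtain ⟨t, ht⟩ := (hA.and ((eventually_ge_atTop 1).and ((eventually_ge_atTop t₂).and
    ((eventually_ge_atTop t₃).and (eventually_ge_atTop N₀))))).exists
  obtain ⟨hA, ht1, ht2, ht3, htN⟩ := ht
  have ht1' : (1 : ℝ) ≤ t := by exact_mod_cast ht1
  have ht2' : 1024 * (B : ℝ) ^ 2 ≤ ε * t := by
    have : (t₂ : ℝ) ≤ t := by exact_mod_cast ht2
    rw [div_le_iff₀ hε] at ht₂; nlinarith
  have ht3' : 1 ≤ η * t := by
    have : (t₃ : ℝ) ≤ t := by exact_mod_cast ht3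
    rw [div_le_iff₀ hη0] at ht₃; nlinarith
  have ht13 : 1 ≤ t ^ 13 := Nat.one_le_pow _ _ ht1
  have ht8 : 1 ≤ t ^ 8 := Nat.one_le_pow _ _ ht1
  set K := 2 * (q * (2 * (8 * t ^ 13) * B)) ^ (2 * t ^ 3 + 1) with hK
  have hKpos : 0 < K := by rw [hK]; positivity
  have : Nonempty (Fin K) := ⟨⟨0, hKpos⟩⟩
  obtain ⟨out, hrat, hd1, hd2, herr⟩ := soft hg B q hB1 hB hq0 hq (8 * t ^ 13) (t ^ 3) (t ^ 8) K
    (by omega) ht8 hK
  set k := 2 * t ^ 13 * D with hk
  obtain ⟨col, h1, h2, h3⟩ := slice_colouring k (Fin (t ^ 8) → Fin K)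
  have hkt : t ^ 13 ≤ k := by rw [hk]; nlinarith
  have h3' := h3.trans (hA k (Fintype.card (Fin (t ^ 8) → Fin K)) hkt (by
    rw [Fintype.card_fun, Fintype.card_fin, Fintype.card_fin, hK]
    apply le_of_eq; congr 3; ring))
  obtain ⟨g', hg'⟩ := combine (9 * k) (5 * k) col h1 h2 out _ _ hrat hd1 hd2 _ herr
    (9 * k + t ^ 8 * ((2 * t ^ 3 + 1) * D)) le_rfl (by
      have e : 5 * k + 8 * t ^ 13 * D = 9 * k := by rw [hk]; ring
      omega) (ε / 4) h3'
  have hcard : Fintype.card (Fin (9 * k) ⊕ Fin (8 * t ^ 13) × Fin b) = 9 * k + 8 * t ^ 13 * b := by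
    simp
  have hg'' := hg'.reindex (Fintype.equivFinOfCardEq hcard)
  have hT : (0 : ℝ) < (t : ℝ) ^ 11 := by positivity
  refine ⟨9 * k + 8 * t ^ 13 * b, 9 * k + t ^ 8 * ((2 * t ^ 3 + 1) * D), _, ?_, ?_, by omega, ?_,
    hg''.rat, hg''.deg, hg''.mean, hg''.err.trans ?_⟩
  · have : t ≤ t ^ 13 := Nat.le_self_pow (by norm_num) t
    omega
  · rw [hk]
    exact ⟨9 * t ^ 13 * D + 4 * t ^ 13 * b, by ring⟩
  · have e1 : θ' = 9 * θ / (9 * θ + 4) + η := by rw [hη]; ring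
    rw [e1, hk]
    push_cast
    have h4 : 9 * (2 * (t : ℝ) ^ 13 * D) ≤
        9 * θ / (9 * θ + 4) * (9 * (2 * (t : ℝ) ^ 13 * D) + 8 * t ^ 13 * b) := by
      rw [div_mul_eq_mul_div, le_div_iff₀ (by positivity)]
      have : (0 : ℝ) < (t : ℝ) ^ 13 := by positivity
      nlinarith
    have h5 : (t : ℝ) ^ 8 * ((2 * t ^ 3 + 1) * D) ≤
        η * (9 * (2 * (t : ℝ) ^ 13 * D) + 8 * t ^ 13 * b) := by
      have h6 : (1 : ℝ) ≤ (t : ℝ) ^ 3 := one_le_pow₀ ht1'
      calc (t : ℝ) ^ 8 * ((2 * t ^ 3 + 1) * D) ≤ (t : ℝ) ^ 8 * ((3 * t ^ 3) * D) := by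
            gcongr; linarith
        _ = 1 * 1 * (3 * (t : ℝ) ^ 11 * D) := by ring
        _ ≤ (η * t) * t * (18 * (t : ℝ) ^ 11 * D) := by gcongr; norm_num
        _ = η * (9 * (2 * (t : ℝ) ^ 13 * D) + 0) := by ring
        _ ≤ _ := by gcongr; positivity
    linarith
  · rw [hk]
    simp only [Fintype.card_prod, Fintype.card_fin]
    push_cast
    have h4 : 64 * (8 * (t : ℝ) ^ 13) ^ 2 * B ^ 2 / ((2 * (t : ℝ) ^ 3 + 1) ^ 2 * t ^ 8) ≤
        1024 * B ^ 2 * t ^ 12 := by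
      rw [div_le_iff₀ (by positivity)]
      calc 64 * (8 * (t : ℝ) ^ 13) ^ 2 * B ^ 2
          = 1024 * B ^ 2 * t ^ 12 * ((2 * (t : ℝ) ^ 3) ^ 2 * t ^ 8) := by ring
        _ ≤ _ := by gcongr; linarith
    have h5 : 1024 * (B : ℝ) ^ 2 * t ^ 12 ≤ ε * t ^ 13 := by
      calc 1024 * (B : ℝ) ^ 2 * t ^ 12 ≤ (ε * t) * t ^ 12 := by gcongr
        _ = _ := by ring
    have h6 : 12 * ((t : ℝ) ^ 3) ^ 4 * B ^ 2 ≤ 1024 * B ^ 2 * t ^ 12 := by
      have : (0 : ℝ) ≤ (B : ℝ) ^ 2 * t ^ 12 := by positivity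
      nlinarith
    have h7 : ε * (t : ℝ) ^ 13 ≤ ε * t ^ 13 * D := le_mul_of_one_le_right (by positivity) hD'
    have h8 : 0 ≤ ε * (t : ℝ) ^ 13 * b := by positivity
    have h9 : 0 ≤ ε * (t : ℝ) ^ 13 := by positivity
    nlinarith

lemma ach_final : Ach 0.58 := by
  have h1 : Ach 0.7 := ach_step (θ := 1) one_pos (by norm_num) ach_one
  have h2 : Ach 0.612 := ach_step (θ := 0.7) (by norm_num) (by norm_num) h1
  exact ach_step (θ := 0.612) (by norm_num) (by norm_num) h2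

end Crest.Agent.R63
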